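import Crest.Agent.R309.RAMDec
import Crest.Prelude.Def_OracleRAM
import Crest.Agent.Lib.PT.Iter
import Crest.Agent.Lib.PT.ListFns
import Crest.Agent.Lib.PT.Arith

-- ▼ part R302/ORAM/Lang
section

/-!
# Structured oracle programs compiled to the oracle word RAM

`OProg` extends the structured programs `Prog` of R309 by one query instruction; `OEx` is the
big-step semantics; `OEx.run` is the correctness of the compilation.
-/

set_option autoImplicit false

namespace Crest.Agent.R302.ORAM

open Crest.WordRAM hiding init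
open Crest.OracleRAM
open Crest.Agent.R309.RAM
open Crest.Agent.Lib.PT Function

/-- oracles on subsets of `Fin n` -/
abbrev Orc (n : ℕ) : Type := Bool → Finset (Fin n) → ℕ

/-- structured oracle programs -/
inductive OProg
  | base (p : Prog)
  | query (b : Bool) (a d : ℕ)
  | seq (p q : OProg)
  | ite (c : Cond) (p q : OProg)
  | loop (c : Cond) (p : OProg)

namespace OProg

/-- all registers below `r` -/
def ok (r : ℕ) : OProg → Prop
  | base p => p.ok r
  | query _ a d => a < r ∧ d < r
  | seq p q => p.ok r ∧ q.ok r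
  | ite c p q => c.ok r ∧ p.ok r ∧ q.ok r
  | loop c p => c.ok r ∧ p.ok r

/-- code length -/
def len : OProg → ℕ
  | base p => p.len
  | query _ _ _ => 1
  | seq p q => p.len + q.len
  | ite _ p q => q.len + 2 + p.len
  | loop _ p => p.len + 2

/-- compilation at offset `o` -/
def comp (r : ℕ) [NeZero r] : OProg → ℕ → List (OInstr r)
  | base p, o => (p.comp r o).map OInstr.base
  | query b a d, _ => [.query b (Fin.ofNat r a) (Fin.ofNat r d)]
  | seq p q, o => p.comp r o ++ q.comp r (o + p.len)
  | ite c p q, o =>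
      .base (c.jmp r (o + 2 + q.len)) :: (q.comp r (o + 1) ++
        (.base (.jump (o + 2 + q.len + p.len)) :: p.comp r (o + 2 + q.len)))
  | loop c p, o => .base (c.jmp r (o + p.len + 2)) :: (p.comp r (o + 1) ++ [.base (.jump o)])

theorem length_comp (r : ℕ) [NeZero r] (p : OProg) : ∀ o, (p.comp r o).length = p.len := by
  induction p with
  | base p => intro o; simp [comp, len, Prog.length_comp]
  | query b a d => intro o; simp [comp, len]
  | seq p q ihp ihq => intro o; simp [comp, len, ihp, ihq]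
  | ite c p q ihp ihq => intro o; simp [comp, len, ihp, ihq]; omega
  | loop c p ih => intro o; simp [comp, len, ih]

end OProg

/-- the set asked by a query -/
def qset (n : ℕ) (M : ℕ → ℕ) (a : ℕ) : Finset (Fin n) :=
  Finset.univ.filter fun j : Fin n => M (a + j.val) ≠ 0

/-- effect of a query -/
def qeff {n : ℕ} (O : Orc n) (w : ℕ) (b : Bool) (a d : ℕ) (s : St) : St :=
  { s with regs := Function.update s.regs d (O b (qset n s.mem (s.regs a)) % 2 ^ w) }

/-- big-step semantics with step counts -/
inductive OEx {n : ℕ} (O : Orc n) (w : ℕ) (ρ : ℕ → ℕ) : OProg → St → St → ℕ → Prop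
  | base {p : Prog} {s s' : St} {t : ℕ} : Ex w ρ p s s' t → OEx O w ρ (.base p) s s' t
  | query (b : Bool) (a d : ℕ) (s : St) : OEx O w ρ (.query b a d) s (qeff O w b a d s) 1
  | seq {p q : OProg} {s s' s'' : St} {t t' : ℕ} :
      OEx O w ρ p s s' t → OEx O w ρ q s' s'' t' → OEx O w ρ (.seq p q) s s'' (t + t')
  | ite_true {c : Cond} {p q : OProg} {s s' : St} {t : ℕ} :
      c.eval s → OEx O w ρ p s s' t → OEx O w ρ (.ite c p q) s s' (1 + t)
  | ite_false {c : Cond} {p q : OProg} {s s' : St} {t : ℕ} :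
      ¬ c.eval s → OEx O w ρ q s s' t → OEx O w ρ (.ite c p q) s s' (1 + t + 1)
  | loop_done {c : Cond} {p : OProg} {s : St} : c.eval s → OEx O w ρ (.loop c p) s s 1
  | loop_step {c : Cond} {p : OProg} {s s' s'' : St} {t t' : ℕ} :
      ¬ c.eval s → OEx O w ρ p s s' t → OEx O w ρ (.loop c p) s' s'' t' →
        OEx O w ρ (.loop c p) s s'' (1 + t + 1 + t')

/-- the code `l` sits at position `o` -/
def OAt {r : ℕ} (code : List (OInstr r)) (o : ℕ) (l : List (OInstr r)) : Prop :=
  ∀ i, i < l.length → code[o + i]? = l[i]?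

theorem OAt.app {r : ℕ} {code : List (OInstr r)} {o : ℕ} {l l' : List (OInstr r)}
    (h : OAt code o (l ++ l')) : OAt code o l ∧ OAt code (o + l.length) l' := by
  constructor
  · intro i hi
    rw [h i (by simp; omega), List.getElem?_append_left hi]
  · intro i hi
    have := h (l.length + i) (by simp; omega)
    rw [List.getElem?_append_right (by omega)] at this
    rw [add_assoc, this]
    congr 1
    omega

theorem OAt.cons {r : ℕ} {code : List (OInstr r)} {o : ℕ} {a : OInstr r} {l : List (OInstr r)}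
    (h : OAt code o (a :: l)) : code[o]? = some a ∧ OAt code (o + 1) l := by
  constructor
  · have := h 0 (by simp)
    simpa using this
  · intro i hi
    have := h (i + 1) (by simp; omega)
    rw [List.getElem?_cons_succ] at this
    rw [← this]
    congr 1
    omega

theorem OAt.self {r : ℕ} (code : List (OInstr r)) : OAt code 0 code := by
  intro i _
  rw [Nat.zero_add]

/-- the oracle configuration of a state -/
def ocfg (r pc : ℕ) (s : St) (k : ℕ) : OCfg r := ⟨cfg r pc s, k⟩

section steps

variable {n : ℕ} {O : Orc n} {P : OProgram} {w : ℕ} {ρ : ℕ → ℕ}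


theorem base_code {pc : ℕ} {i : Instr P.numRegs} (h : P.code[pc]? = some (.base i)) :
    (baseProgram P).code[pc]? = some i := by
  show (P.code.map OInstr.toBase)[pc]? = some i
  rw [List.getElem?_map, h]
  rfl

theorem ostep_base {pc : ℕ} {s : St} {k : ℕ} {i : Instr P.numRegs}
    (h : P.code[pc]? = some (.base i)) :
    ostep P n O w ρ (ocfg P.numRegs pc s k) =
      ⟨step (baseProgram P) w ρ (cfg P.numRegs pc s), k⟩ := by
  unfold ostep
  have hh : (ocfg P.numRegs pc s k).cfg.halted = false := rfl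
  have hp : (ocfg P.numRegs pc s k).cfg.pc = pc := rfl
  simp only [hh, hp, h, Bool.false_eq_true, if_false]
  rfl

theorem ostep_op [NeZero P.numRegs] {i : Op} {pc : ℕ} {s : St} {k : ℕ}
    (hok : i.ok P.numRegs) (h : P.code[pc]? = some (.base (i.toInstr P.numRegs))) :
    ostep P n O w ρ (ocfg P.numRegs pc s k) = ocfg P.numRegs (pc + 1) (i.eff w ρ s) k := by
  haveI : NeZero (baseProgram P).numRegs := inferInstanceAs (NeZero P.numRegs)
  rw [ostep_base h]
  have := step_op (P := baseProgram P) (w := w) (ρ := ρ) (s := s) hok (base_code h)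
  exact congrArg (fun c => (⟨c, k⟩ : OCfg P.numRegs)) this

theorem ostep_jmp [NeZero P.numRegs] {c : Cond} {pc l : ℕ} {s : St} {k : ℕ}
    (hok : c.ok P.numRegs) (h : P.code[pc]? = some (.base (c.jmp P.numRegs l))) :
    ostep P n O w ρ (ocfg P.numRegs pc s k) =
      ocfg P.numRegs (if c.eval s then l else pc + 1) s k := by
  haveI : NeZero (baseProgram P).numRegs := inferInstanceAs (NeZero P.numRegs)
  rw [ostep_base h]
  have := step_jmp (P := baseProgram P) (w := w) (ρ := ρ) (s := s) hok (base_code h)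
  exact congrArg (fun c => (⟨c, k⟩ : OCfg P.numRegs)) this

theorem ostep_jump {pc l : ℕ} {s : St} {k : ℕ} (h : P.code[pc]? = some (.base (.jump l))) :
    ostep P n O w ρ (ocfg P.numRegs pc s k) = ocfg P.numRegs l s k := by
  rw [ostep_base h]
  have := step_jump (P := baseProgram P) (w := w) (ρ := ρ) (s := s) (base_code h)
  exact congrArg (fun c => (⟨c, k⟩ : OCfg P.numRegs)) this

theorem ostep_query [NeZero P.numRegs] {b : Bool} {a d pc : ℕ} {s : St} {k : ℕ}
    (ha : a < P.numRegs) (hd : d < P.numRegs)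
    (h : P.code[pc]? = some (.query b (Fin.ofNat P.numRegs a) (Fin.ofNat P.numRegs d))) :
    ostep P n O w ρ (ocfg P.numRegs pc s k) =
      ocfg P.numRegs (pc + 1) (qeff O w b a d s) (k + 1) := by
  unfold ostep
  have hh : (ocfg P.numRegs pc s k).cfg.halted = false := rfl
  have hp : (ocfg P.numRegs pc s k).cfg.pc = pc := rfl
  simp only [hh, hp, h, Bool.false_eq_true, if_false]
  unfold ocfg qeff
  congr 1
  show Cfg.mk _ _ _ _ _ = Cfg.mk _ _ _ _ _
  congr 1
  have e : ((Fin.ofNat P.numRegs a : Fin P.numRegs) : ℕ) = a := ofNat_val ha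
  show writeReg (fun j : Fin P.numRegs => s.regs j) _ (O b (Finset.univ.filter fun j : Fin n =>
    s.mem (s.regs ((Fin.ofNat P.numRegs a : Fin P.numRegs) : ℕ) + j.val) ≠ 0) % 2 ^ w) = _
  rw [e, writeReg_eq hd]
  rfl

theorem orun_ops [NeZero P.numRegs] (l : List Op) :
    ∀ {pc : ℕ} {s : St} {k : ℕ}, (∀ i ∈ l, i.ok P.numRegs) →
    OAt P.code pc ((l.map (Op.toInstr P.numRegs)).map OInstr.base) →
    (ostep P n O w ρ)^[l.length] (ocfg P.numRegs pc s k) =
      ocfg P.numRegs (pc + l.length) (effs w ρ l s) k := by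
  induction l with
  | nil => intro pc s k _ _; rfl
  | cons i l ih =>
    intro pc s k hok h
    rw [List.map_cons, List.map_cons] at h
    obtain ⟨h1, h2⟩ := h.cons
    rw [List.length_cons, Function.iterate_succ_apply, ostep_op (hok i (by simp)) h1,
      ih (fun j hj => hok j (by simp [hj])) h2, effs_cons]
    congr 1
    omega

/-- correctness of the compilation, query-free part -/
theorem ex_orun [NeZero P.numRegs] {p : Prog} {s s' : St} {t : ℕ}
    (h : Ex w ρ p s s' t) : ∀ {o k : ℕ}, p.ok P.numRegs →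
    OAt P.code o ((p.comp P.numRegs o).map OInstr.base) →
    (ostep P n O w ρ)^[t] (ocfg P.numRegs o s k) = ocfg P.numRegs (o + p.len) s' k := by
  induction h with
  | blk l s => intro o k hok h; exact orun_ops l hok h
  | @seq p q s s' s'' t t' _ _ ih1 ih2 =>
    intro o k hok h
    rw [Prog.comp, List.map_append] at h
    obtain ⟨h1, h2⟩ := h.app
    rw [List.length_map, Prog.length_comp] at h2
    rw [add_comm t t', Function.iterate_add_apply, ih1 hok.1 h1, ih2 hok.2 h2]
    simp only [Prog.len, add_assoc]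
  | @ite_true c p q s s' t hc _ ih =>
    intro o k hok h
    rw [Prog.comp, List.map_cons, List.map_append, List.map_cons] at h
    obtain ⟨h1, h2⟩ := h.cons
    obtain ⟨h3, h4⟩ := h2.app
    obtain ⟨h5, h6⟩ := h4.cons
    rw [List.length_map, Prog.length_comp] at h5 h6
    rw [add_comm 1 t, Function.iterate_add_apply, Function.iterate_one, ostep_jmp hok.1 h1,
      if_pos hc]
    have e : o + 1 + q.len + 1 = o + 2 + q.len := by omega
    rw [e] at h6
    rw [ih hok.2.1 h6]
    simp only [Prog.len]
    congr 1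
    omega
  | @ite_false c p q s s' t hc _ ih =>
    intro o k hok h
    rw [Prog.comp, List.map_cons, List.map_append, List.map_cons] at h
    obtain ⟨h1, h2⟩ := h.cons
    obtain ⟨h3, h4⟩ := h2.app
    obtain ⟨h5, h6⟩ := h4.cons
    rw [List.length_map, Prog.length_comp] at h5
    rw [show 1 + t + 1 = 1 + (t + 1) by omega, Function.iterate_add_apply,
      Function.iterate_add_apply, Function.iterate_one, ostep_jmp hok.1 h1, if_neg hc,
      ih hok.2.2 h3, ostep_jump h5]
    simp only [Prog.len]
    congr 1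
    omega
  | @loop_done c p s hc =>
    intro o k hok h
    rw [Prog.comp, List.map_cons, List.map_append] at h
    obtain ⟨h1, h2⟩ := h.cons
    rw [Function.iterate_one, ostep_jmp hok.1 h1, if_pos hc]
    simp only [Prog.len]
    congr 1
  | @loop_step c p s s' s'' t t' hc _ _ ih1 ih2 =>
    intro o k hok h
    have h0 := h
    rw [Prog.comp, List.map_cons, List.map_append] at h
    obtain ⟨h1, h2⟩ := h.cons
    obtain ⟨h3, h4⟩ := h2.app
    obtain ⟨h5, _⟩ := h4.cons
    rw [List.length_map, Prog.length_comp] at h5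
    rw [show 1 + t + 1 + t' = t' + (1 + (t + 1)) by omega, Function.iterate_add_apply,
      Function.iterate_add_apply, Function.iterate_add_apply, Function.iterate_one,
      ostep_jmp hok.1 h1, if_neg hc, ih1 hok.2 h3, ostep_jump h5, ih2 hok h0]

/-- correctness of the compilation -/
theorem OEx.run [NeZero P.numRegs] {p : OProg} {s s' : St} {t : ℕ}
    (h : OEx O w ρ p s s' t) : ∀ {o k : ℕ}, p.ok P.numRegs →
    OAt P.code o (p.comp P.numRegs o) →
    ∃ k', (ostep P n O w ρ)^[t] (ocfg P.numRegs o s k) = ocfg P.numRegs (o + p.len) s' k' := by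
  induction h with
  | base h => intro o k hok hc; exact ⟨k, ex_orun h hok hc⟩
  | query b a d s =>
    intro o k hok h
    obtain ⟨h1, _⟩ := h.cons
    exact ⟨k + 1, ostep_query hok.1 hok.2 h1⟩
  | @seq p q s s' s'' t t' _ _ ih1 ih2 =>
    intro o k hok h
    obtain ⟨h1, h2⟩ := OAt.app h
    rw [OProg.length_comp] at h2
    obtain ⟨k1, e1⟩ := ih1 (k := k) hok.1 h1
    obtain ⟨k2, e2⟩ := ih2 (k := k1) hok.2 h2
    refine ⟨k2, ?_⟩
    rw [add_comm t t', Function.iterate_add_apply, e1, e2]
    simp only [OProg.len, add_assoc]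
  | @ite_true c p q s s' t hc _ ih =>
    intro o k hok h
    obtain ⟨h1, h2⟩ := h.cons
    obtain ⟨h3, h4⟩ := h2.app
    obtain ⟨h5, h6⟩ := h4.cons
    rw [OProg.length_comp] at h5 h6
    have e : o + 1 + q.len + 1 = o + 2 + q.len := by omega
    rw [e] at h6
    obtain ⟨k1, e1⟩ := ih (k := k) hok.2.1 h6
    refine ⟨k1, ?_⟩
    rw [add_comm 1 t, Function.iterate_add_apply, Function.iterate_one, ostep_jmp hok.1 h1,
      if_pos hc, e1]
    simp only [OProg.len]
    congr 1
    omega
  | @ite_false c p q s s' t hc _ ih =>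
    intro o k hok h
    obtain ⟨h1, h2⟩ := h.cons
    obtain ⟨h3, h4⟩ := h2.app
    obtain ⟨h5, h6⟩ := h4.cons
    rw [OProg.length_comp] at h5
    obtain ⟨k1, e1⟩ := ih (k := k) hok.2.2 h3
    refine ⟨k1, ?_⟩
    rw [show 1 + t + 1 = 1 + (t + 1) by omega, Function.iterate_add_apply,
      Function.iterate_add_apply, Function.iterate_one, ostep_jmp hok.1 h1, if_neg hc,
      e1, ostep_jump h5]
    simp only [OProg.len]
    congr 1
    omega
  | @loop_done c p s hc =>
    intro o k hok h
    obtain ⟨h1, h2⟩ := h.cons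
    refine ⟨k, ?_⟩
    rw [Function.iterate_one, ostep_jmp hok.1 h1, if_pos hc]
    simp only [OProg.len]
    congr 1
  | @loop_step c p s s' s'' t t' hc _ _ ih1 ih2 =>
    intro o k hok h
    have h0 := h
    obtain ⟨h1, h2⟩ := h.cons
    obtain ⟨h3, h4⟩ := h2.app
    obtain ⟨h5, _⟩ := h4.cons
    rw [OProg.length_comp] at h5
    obtain ⟨k1, e1⟩ := ih1 (k := k) hok.2 h3
    obtain ⟨k2, e2⟩ := ih2 (k := k1) hok h0
    refine ⟨k2, ?_⟩
    rw [show 1 + t + 1 + t' = t' + (1 + (t + 1)) by omega, Function.iterate_add_apply,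
      Function.iterate_add_apply, Function.iterate_add_apply, Function.iterate_one,
      ostep_jmp hok.1 h1, if_neg hc, e1, ostep_jump h5, e2]

end steps

/-! ### registers beyond the bound are not touched -/

theorem Op.eff_frame {w : ℕ} {ρ : ℕ → ℕ} {i : Op} {r : ℕ} (hok : i.ok r) (s : St) {j : ℕ}
    (hj : r ≤ j) : (i.eff w ρ s).regs j = s.regs j := by
  cases i with
  | const d v =>
    have : d < r := hok
    simp [Op.eff, show j ≠ d by omega]
  | copy d a =>
    have : d < r := hok.1
    simp [Op.eff, show j ≠ d by omega]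
  | add d a b =>
    have : d < r := hok.1
    simp [Op.eff, show j ≠ d by omega]
  | sub d a b =>
    have : d < r := hok.1
    simp [Op.eff, show j ≠ d by omega]
  | mul d a b =>
    have : d < r := hok.1
    simp [Op.eff, show j ≠ d by omega]
  | quot d a b =>
    have : d < r := hok.1
    simp [Op.eff, show j ≠ d by omega]
  | rem d a b =>
    have : d < r := hok.1
    simp [Op.eff, show j ≠ d by omega]
  | load d a =>
    have : d < r := hok.1
    simp [Op.eff, show j ≠ d by omega]
  | store a b => rfl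
  | rand d =>
    have : d < r := hok
    simp [Op.eff, show j ≠ d by omega]

theorem effs_frame {w : ℕ} {ρ : ℕ → ℕ} {r : ℕ} (l : List Op) :
    ∀ (_ : ∀ i ∈ l, i.ok r) (s : St) {j : ℕ} (_ : r ≤ j), (effs w ρ l s).regs j = s.regs j := by
  induction l with
  | nil => intro _ s j _; rfl
  | cons i l ih =>
    intro hok s j hj
    rw [effs_cons, ih (fun i' hi' => hok i' (by simp [hi'])) _ hj,
      Op.eff_frame (hok i (by simp)) s hj]

theorem Ex.frame {w : ℕ} {ρ : ℕ → ℕ} {p : Prog} {s s' : St} {t r : ℕ} (h : Ex w ρ p s s' t)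
    (hok : p.ok r) {j : ℕ} (hj : r ≤ j) : s'.regs j = s.regs j := by
  induction h with
  | blk l s => exact effs_frame l hok s hj
  | seq _ _ ih1 ih2 => rw [ih2 hok.2, ih1 hok.1]
  | ite_true _ _ ih => exact ih hok.2.1
  | ite_false _ _ ih => exact ih hok.2.2
  | loop_done _ => rfl
  | loop_step _ _ _ ih1 ih2 => rw [ih2 hok, ih1 hok.2]

theorem Op.ok_mono {i : Op} {r r' : ℕ} (h : i.ok r) (hr : r ≤ r') : i.ok r' := by
  cases i <;> simp only [Op.ok] at * <;> omega

theorem Cond.ok_mono {c : Cond} {r r' : ℕ} (h : c.ok r) (hr : r ≤ r') : c.ok r' := by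
  cases c <;> simp only [Cond.ok] at * <;> omega

theorem Prog.ok_mono {p : Prog} {r r' : ℕ} (h : p.ok r) (hr : r ≤ r') : p.ok r' := by
  induction p with
  | blk l => exact fun i hi => Op.ok_mono (h i hi) hr
  | seq p q ihp ihq => exact ⟨ihp h.1, ihq h.2⟩
  | ite c p q ihp ihq => exact ⟨Cond.ok_mono h.1 hr, ihp h.2.1, ihq h.2.2⟩
  | loop c p ih => exact ⟨Cond.ok_mono h.1 hr, ih h.2⟩

end Crest.Agent.R302.ORAM
private theorem rz_fcaae72f30 : type_of% @_root_.Crest.Agent.R302.ORAM.OProg.comp.eq_def := @_root_.Crest.Agent.R302.ORAM.OProg.comp.eq_def -- L50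
private theorem rz_19187fdf7e : type_of% @_root_.Crest.Agent.R302.ORAM.OProg.comp.eq_1 := @_root_.Crest.Agent.R302.ORAM.OProg.comp.eq_1 -- L50
private theorem rz_9c6e812448 : type_of% @_root_.Crest.Agent.R302.ORAM.OProg.len.eq_def := @_root_.Crest.Agent.R302.ORAM.OProg.len.eq_def -- L42
private theorem rz_f621187e40 : type_of% @_root_.Crest.Agent.R302.ORAM.OProg.len.eq_1 := @_root_.Crest.Agent.R302.ORAM.OProg.len.eq_1 -- L42
end

-- ▼ part R302/ORAM/Cmd
section

/-!
# Stack programs with oracle queries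

* `Inst`: an oracle instance (`n`, the two set functions, a size bound).
* `OCmd`, `OExec`: the stack language of `Lib.PT` with one query instruction.
* `otr`: translation to oracle programs, `oexec_tr`: simulation.
-/

set_option autoImplicit false

namespace Crest.Agent.R302.ORAM

open Crest.WordRAM hiding init
open Crest.OracleRAM
open Crest.Agent.R309.RAM
open Crest.Agent.Lib.PT Function

/-- an oracle instance -/
structure Inst where
  /-- size of the ground set -/
  n : ℕ
  /-- the two set functions -/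
  O : Orc n
  /-- size bound -/
  sz : ℕ
  /-- the ground set is small -/
  hn : n ≤ sz
  /-- the answers are small -/
  hO : ∀ b A, (O b A).size ≤ sz

/-- the subset of `Fin n` given by a list of bits -/
def lset (n : ℕ) (l : List Bool) : Finset (Fin n) :=
  Finset.univ.filter fun j : Fin n => l[(j : ℕ)]? = some true

/-- the answer to the query `b`, `l` -/
def Inst.ans (I : Inst) (b : Bool) (l : List Bool) : ℕ := I.O b (lset I.n l)

theorem Inst.ans_size (I : Inst) (b : Bool) (l : List Bool) : (I.ans b l).size ≤ I.sz := I.hO _ _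

/-- the answer as a string -/
def Inst.qry (I : Inst) (b : Bool) (l : List Bool) : List Bool := pair (I.ans b l).bits []

/-- stack programs with queries -/
inductive OCmd
  | cmd (c : Cmd)
  | query (b : Bool) (k : ℕ)
  | ground (k : ℕ)
  | seq (c d : OCmd)
  | ite (k : ℕ) (e c d : OCmd)
  | loop (k : ℕ) (c : OCmd)

/-- a bound on the stacks used -/
def OCmd.maxVar : OCmd → ℕ
  | cmd c => c.maxVar
  | query _ k => k
  | ground k => k
  | seq c d => max c.maxVar d.maxVar
  | ite k e c d => max k (max e.maxVar (max c.maxVar d.maxVar))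
  | loop k c => max k c.maxVar

/-- big-step semantics -/
inductive OExec (I : Inst) : OCmd → Store → Store → ℕ → Prop
  | cmd {c : Cmd} {s s' : Store} {t : ℕ} : Exec c s s' t → OExec I (.cmd c) s s' t
  | query (b : Bool) (k : ℕ) (s : Store) :
      OExec I (.query b k) s (update s k (I.qry b (s k)))
        ((s k).length + I.n + 2 * (I.ans b (s k)).size + 2)
  | ground (k : ℕ) (s : Store) :
      OExec I (.ground k) s (update s k (List.replicate I.n true ++ s k)) (I.n + 1)
  | seq {c d : OCmd} {s s' s'' : Store} {t t' : ℕ} :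
      OExec I c s s' t → OExec I d s' s'' t' → OExec I (.seq c d) s s'' (t + t')
  | ite_nil {k : ℕ} {e c d : OCmd} {s s' : Store} {t : ℕ} :
      s k = [] → OExec I e s s' t → OExec I (.ite k e c d) s s' (1 + t)
  | ite_true {k : ℕ} {e c d : OCmd} {s s' : Store} {t : ℕ} {l : List Bool} :
      s k = true :: l → OExec I c s s' t → OExec I (.ite k e c d) s s' (1 + t)
  | ite_false {k : ℕ} {e c d : OCmd} {s s' : Store} {t : ℕ} {l : List Bool} :
      s k = false :: l → OExec I d s s' t → OExec I (.ite k e c d) s s' (1 + t)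
  | loop_nil {k : ℕ} {c : OCmd} {s : Store} : s k = [] → OExec I (.loop k c) s s 1
  | loop_cons {k : ℕ} {c : OCmd} {s s' s'' : Store} {t t' : ℕ} :
      s k ≠ [] → OExec I c s s' t → OExec I (.loop k c) s' s'' t' →
        OExec I (.loop k c) s s'' (1 + t + t')

theorem length_qry (I : Inst) (b : Bool) (l : List Bool) :
    (I.qry b l).length = 2 * (I.ans b l).size + 1 := by
  unfold Inst.qry
  rw [core_length_pair, Nat.size_eq_bits_len]
  simp

theorem OExec.length_le {I : Inst} {c : OCmd} {s s' : Store} {t : ℕ} (h : OExec I c s s' t)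
    (k : ℕ) : (s' k).length ≤ (s k).length + t := by
  induction h with
  | cmd h => exact h.length_le k
  | query b j s =>
    by_cases hk : k = j
    · subst hk
      rw [update_self, length_qry]
      omega
    · rw [update_of_ne hk]
      omega
  | ground j s =>
    by_cases hk : k = j
    · subst hk
      rw [update_self, List.length_append, List.length_replicate]
      omega
    · rw [update_of_ne hk]
      omega
  | seq _ _ ih1 ih2 => omega
  | ite_nil _ _ ih => omega
  | ite_true _ _ ih => omega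
  | ite_false _ _ ih => omega
  | loop_nil _ => omega
  | loop_cons _ _ _ ih1 ih2 => omega

/-! ### pushing a number on stack `k` -/

/-- push the bits -/
def encNum2K (k : ℕ) : Prog := .loop (.zero 10)
  (.blk ([.quot 2 8 10, .rem 2 2 5] ++ pushB k 2 ++ pushB k 4 ++ [.quot 10 10 5]))

/-- push the code of the number in register `8` -/
def encNumK (k : ℕ) : Prog :=
  .seq (.blk ([.add 11 8 4, .copy 10 7] ++ pushB k 3)) (.seq encNum1 (encNum2K k))

theorem encNum2K_run {w K H a k : ℕ} (ρ : ℕ → ℕ) (hw : 1 ≤ w) (hH : K * (H + 1) ≤ 2 ^ (w - 1))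
    (hK : k < K) (X : List Bool) : ∀ (i : ℕ) (S : Store) (σ : St), i ≤ a.size → Rep w K S σ →
    σ.regs 8 = a → σ.regs 10 = 2 ^ i / 2 →
    S k = (a / 2 ^ i).bits.flatMap (fun b => [true, b]) ++ X → (S k).length + 2 * i ≤ H →
    ∃ σ' t, Ex w ρ (encNum2K k) σ σ' t ∧ t ≤ 1 + 9 * i ∧
      Rep w K (update S k (a.bits.flatMap (fun b => [true, b]) ++ X)) σ' ∧
      (∀ j, j ≠ 2 → j ≠ 10 → j < 12 → σ'.regs j = σ.regs j) ∧ σ'.drawn = σ.drawn := by
  intro i
  induction i with
  | zero =>
    intro S σ _ hσ h8 h10 h0 _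
    refine ⟨σ, 1, Ex.loop_done ?_, by omega, ?_, fun _ _ _ _ => rfl, rfl⟩
    · show σ.regs 10 = 0
      rw [h10]; simp
    · rw [pow_zero, Nat.div_one] at h0
      rw [← h0, update_eq_self]
      exact hσ
  | succ i ih =>
    intro S σ hi hσ h8 h10 h0 hroom
    have hdiv : a / 2 ^ (i + 1) = (a / 2 ^ i).div2 := by
      rw [Nat.div2_val, Nat.div_div_eq_div_mul, pow_succ]
    have hne : a / 2 ^ i ≠ 0 := by
      have h1 : 2 ^ i ≤ a := Nat.lt_size.1 (by omega)
      have := (Nat.div_pos h1 (by positivity))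
      omega
    have hbits : (a / 2 ^ i).bits = (a / 2 ^ i).bodd :: (a / 2 ^ (i + 1)).bits := by
      rw [hdiv]
      have h1 : (a / 2 ^ i).bits ≠ [] := by
        intro h
        have := congrArg List.length h
        rw [Nat.size_eq_bits_len] at this
        exact hne (Nat.size_eq_zero.1 (by simpa using this))
      rw [Nat.div2_bits_eq_tail, Nat.bodd_eq_bits_head]
      cases h2 : (a / 2 ^ i).bits with
      | nil => exact absurd h2 h1
      | cons x l => rfl
    set σ1 := effs w ρ [.quot 2 8 10, .rem 2 2 5] σ with hσ1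
    have h10' : σ.regs 10 = 2 ^ i := by
      rw [h10, pow_succ]; omega
    have r1 : Rep w K S σ1 := by
      simp only [hσ1, effs_cons, effs_nil, Op.eff]
      exact (hσ.scratch _ (by omega)).scratch _ (by omega)
    have a2 : σ1.regs 2 = ((a / 2 ^ i).bodd).toNat := by
      simp only [hσ1, effs_cons, effs_nil, Op.eff, update_self]
      rw [update_of_ne (show (5 : ℕ) ≠ 2 by omega), hσ.two, h8, h10', Nat.mod_two_of_bodd]
    have aj : ∀ j, j ≠ 2 → σ1.regs j = σ.regs j := by
      intro j hj
      simp [hσ1, Op.eff, hj]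
    have r2 := r1.pushB (ρ := ρ) (k := k) hK (adr_lt hw hH hK (by omega)) (r := 2) (by omega) a2
    set σ2 := effs w ρ (pushB k 2) σ1 with hσ2
    have bj : ∀ j, j ≠ 2 → j < 12 → σ2.regs j = σ.regs j := by
      intro j hj hj'
      rw [hσ2, pushB_regs (by omega), aj j hj]
    have room2 : adr w K k ((update S k ((a / 2 ^ i).bodd :: S k) k).length + 1) < 2 ^ w := by
      rw [update_self, List.length_cons]
      exact adr_lt hw hH hK (by omega)
    have r3 := r2.pushB (ρ := ρ) (k := k) hK room2 (r := 4) (b := true) (by omega) r2.one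
    set σ3 := effs w ρ (pushB k 4) σ2 with hσ3
    have cj : ∀ j, j ≠ 2 → j < 12 → σ3.regs j = σ.regs j := by
      intro j hj hj'
      rw [hσ3, pushB_regs (by omega), bj j hj hj']
    set σ4 := effs w ρ [.quot 10 10 5] σ3 with hσ4
    have r4 : Rep w K (update S k (true :: (a / 2 ^ i).bodd :: S k)) σ4 := by
      simp only [hσ4, effs_cons, effs_nil, Op.eff]
      have := r3.scratch (d := 10) (σ3.regs 10 / σ3.regs 5) (by omega)
      rw [update_idem, update_self] at this
      exact this
    have d10 : σ4.regs 10 = 2 ^ i / 2 := by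
      simp only [hσ4, effs_cons, effs_nil, Op.eff, update_self]
      rw [cj 10 (by omega) (by omega), h10', r3.two]
    have dj : ∀ j, j ≠ 2 → j ≠ 10 → j < 12 → σ4.regs j = σ.regs j := by
      intro j hj hj' hj''
      have : σ4.regs j = σ3.regs j := by simp [hσ4, Op.eff, hj']
      rw [this, cj j hj hj'']
    obtain ⟨σ', t, e, ht, r, fj, fd⟩ := ih (update S k (true :: (a / 2 ^ i).bodd :: S k)) σ4
      (by omega) r4 (by rw [dj 8 (by omega) (by omega) (by omega), h8]) d10 (by
        rw [update_self, h0, hbits]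
        simp) (by
        rw [update_self, List.length_cons, List.length_cons]
        omega)
    have heff : effs w ρ ([.quot 2 8 10, .rem 2 2 5] ++ pushB k 2 ++ pushB k 4 ++ [.quot 10 10 5]) σ
        = σ4 := by
      rw [effs_append, effs_append, effs_append]
    have hbody : Ex w ρ (.blk ([.quot 2 8 10, .rem 2 2 5] ++ pushB k 2 ++ pushB k 4 ++
        [.quot 10 10 5])) σ σ4 7 := by
      conv => arg 5; rw [← heff]
      exact Ex.blk _ _
    refine ⟨σ', _, Ex.loop_step ?_ hbody e, by omega, ?_, ?_, ?_⟩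
    · show ¬ σ.regs 10 = 0
      rw [h10']
      positivity
    · rw [update_idem] at r
      exact r
    · intro j h1 h2 h3
      rw [fj j h1 h2 h3, dj j h1 h2 h3]
    · rw [fd]
      rfl

theorem encNumK_run {w K H a k : ℕ} (ρ : ℕ → ℕ) (hw : 1 ≤ w) (hH : K * (H + 1) ≤ 2 ^ (w - 1))
    (hK : k < K) (ha : a + 1 < 2 ^ w) (X : List Bool) (S : Store) (σ : St) (hσ : Rep w K S σ)
    (h8 : σ.regs 8 = a) (hX : S k = X) (hroom : X.length + 1 + 2 * a.size ≤ H) :
    ∃ σ' t, Ex w ρ (encNumK k) σ σ' t ∧ t ≤ 6 + 12 * w ∧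
      Rep w K (update S k (pair a.bits X)) σ' ∧ σ'.drawn = σ.drawn := by
  have hsz : a.size ≤ w := Nat.size_le.2 (by omega)
  set σ1 := effs w ρ [.add 11 8 4, .copy 10 7] σ with hσ1
  have r1 : Rep w K S σ1 := by
    simp only [hσ1, effs_cons, effs_nil, Op.eff]
    exact (hσ.scratch _ (by omega)).scratch _ (by omega)
  have a11 : σ1.regs 11 = a + 1 := by
    simp only [hσ1, effs_cons, effs_nil, Op.eff]
    rw [update_of_ne (show (11 : ℕ) ≠ 10 by omega), update_self, h8, hσ.one, Nat.mod_eq_of_lt ha]
  have a10 : σ1.regs 10 = 2 ^ (w - 1) := by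
    simp only [hσ1, effs_cons, effs_nil, Op.eff, update_self]
    rw [update_of_ne (show (7 : ℕ) ≠ 11 by omega), hσ.base]
  have aj : ∀ j, j < 10 → σ1.regs j = σ.regs j := by
    intro j hj
    simp only [hσ1, effs_cons, effs_nil, Op.eff]
    rw [update_of_ne (by omega), update_of_ne (by omega)]
  have room : adr w K k ((S k).length + 1) < 2 ^ w := adr_lt hw hH hK (by rw [hX]; omega)
  have r2 := r1.pushB (ρ := ρ) (k := k) hK room (r := 3) (b := false) (by omega) r1.zero
  set σ2 := effs w ρ (pushB k 3) σ1 with hσ2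
  have bj : ∀ j, j < 12 → σ2.regs j = σ1.regs j := by
    intro j hj
    rw [hσ2, pushB_regs (by omega)]
  obtain ⟨t3, e3, b3⟩ := encNum1_run (w := w) (a := a) ρ (w - a.size) σ2 (by
      rw [bj 10 (by omega), a10, show a.size + (w - a.size) = w by omega]
      obtain ⟨v, rfl⟩ := Nat.exists_eq_add_of_le hw
      rw [Nat.add_sub_cancel_left, pow_add]
      omega) r2.two (by rw [bj 11 (by omega), a11])
  set σ3 : St := { σ2 with regs := update σ2.regs 10 (2 ^ a.size / 2) } with hσ3
  have r3 : Rep w K (update S k (false :: S k)) σ3 := r2.scratch _ (by omega)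
  have cj : ∀ j, j < 10 → σ3.regs j = σ.regs j := by
    intro j hj
    show update σ2.regs 10 _ j = _
    rw [update_of_ne (by omega), bj j (by omega), aj j hj]
  have c10 : σ3.regs 10 = 2 ^ a.size / 2 := by
    simp [hσ3]
  obtain ⟨σ', t4, e4, b4, r4, fj, fd⟩ := encNum2K_run (a := a) ρ hw hH hK (false :: X) a.size
    (update S k (false :: S k)) σ3 le_rfl r3 (by rw [cj 8 (by omega), h8]) c10 (by
      rw [update_self, Nat.div_eq_of_lt (Nat.lt_size_self a), hX]
      simp) (by
      rw [update_self, List.length_cons, hX]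
      omega)
  have heff : effs w ρ ([.add 11 8 4, .copy 10 7] ++ pushB k 3) σ = σ2 := by
    rw [effs_append]
  have hb : Ex w ρ (.blk ([.add 11 8 4, .copy 10 7] ++ pushB k 3)) σ σ2 4 := by
    conv => arg 5; rw [← heff]
    exact Ex.blk _ _
  refine ⟨σ', _, Ex.seq hb (Ex.seq e3 e4), ?_, ?_, ?_⟩
  · omega
  · rw [update_idem] at r4
    exact r4
  · rw [fd]
    rfl

/-! ### the query -/

/-- write stack `k` to the cells `0, 1, ...` -/
def readK (k : ℕ) : Prog := .seq (.blk [.const 9 0, .load 2 (12 + k)])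
  (.loop (.eq 2 5) (.blk ([.store 2 9, .add 9 9 4] ++ popB k ++ [.load 2 (12 + k)])))

/-- write zeros to the cells up to the content of register `r` -/
def fillN (r : ℕ) : Prog := .seq (.blk [.add 10 9 4])
  (.loop (.lt r 10) (.blk [.store 3 9, .copy 9 10, .add 10 10 4]))

theorem readK_loop {w K H k : ℕ} (ρ : ℕ → ℕ) (hw : 1 ≤ w)
    (hlow : H < 2 ^ (w - 1)) (hK : k < K) :
    ∀ (l : List Bool) (i : ℕ) (S : Store) (σ : St), S k = l → i + l.length ≤ H → Rep w K S σ →
      σ.regs 9 = i →
      ∃ σ' t, Ex w ρ (.loop (.eq 2 5) (.blk ([.store 2 9, .add 9 9 4] ++ popB k ++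
          [.load 2 (12 + k)]))) (ld k σ) σ' t ∧ t ≤ 1 + 6 * l.length ∧
        Rep w K (update S k []) σ' ∧ σ'.regs 9 = i + l.length ∧
        (∀ a, a < i → σ'.mem a = σ.mem a) ∧
        (∀ j (hj : j < l.length), σ'.mem (i + j) = (l[j]).toNat) ∧ σ'.drawn = σ.drawn := by
  intro l
  induction l with
  | nil =>
    intro i S σ h0 hi hσ h9
    refine ⟨ld k σ, 1, Ex.loop_done ((hσ.ld_eval5 hK).2 h0), by omega, ?_, ?_, ?_, ?_, rfl⟩
    · rw [← h0, update_eq_self]
      exact hσ.ld k
    · rw [ld_regs (by omega), h9]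
      simp
    · intro a _
      rfl
    · intro j hj
      simp at hj
  | cons b l ih =>
    intro i S σ h0 hi hσ h9
    rw [List.length_cons] at hi
    have hB := two_pow_half hw
    have r0 := hσ.ld k
    have b2 : (ld k σ).regs 2 = b.toNat := by
      rw [hσ.ld_reg hK, h0]
      rfl
    have b9 : (ld k σ).regs 9 = i := by rw [ld_regs (by omega), h9]
    set σ1 := effs w ρ [.store 2 9, .add 9 9 4] (ld k σ) with hσ1
    have e1 : σ1 = { regs := update (ld k σ).regs 9 (i + 1), mem := update σ.mem i b.toNat,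
                     drawn := σ.drawn } := by
      simp only [hσ1, effs_cons, effs_nil, Op.eff]
      rw [b2, b9, r0.one, Nat.mod_eq_of_lt (show i + 1 < 2 ^ w by omega)]
      rfl
    have r1 : Rep w K S σ1 := by
      rw [e1]
      refine (r0.scratch (d := 9) (i + 1) (by omega)).congr rfl rfl rfl rfl rfl (fun _ _ => rfl) ?_
      intro a ha
      show update σ.mem i b.toNat a = (ld k σ).mem a
      rw [update_of_ne (by omega)]
      rfl
    have r2 := r1.popB (ρ := ρ) hK h0
    set σ2 := effs w ρ (popB k) σ1 with hσ2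
    have c9 : σ2.regs 9 = i + 1 := by
      rw [hσ2, popB_regs (by omega), e1]
      simp
    obtain ⟨σ', t, e, ht, r, c9', cm, cl, cd⟩ := ih (i + 1) (update S k l) σ2 (by rw [update_self])
      (by omega) r2 c9
    have heff : effs w ρ ([.store 2 9, .add 9 9 4] ++ popB k ++ [.load 2 (12 + k)]) (ld k σ) =
        ld k σ2 := by
      rw [effs_append, effs_append]
      rfl
    have hbody : Ex w ρ (.blk ([.store 2 9, .add 9 9 4] ++ popB k ++ [.load 2 (12 + k)])) (ld k σ)
        (ld k σ2) 4 := by
      rw [← heff]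
      exact Ex.blk _ _
    have m2 : ∀ a, σ2.mem a = update σ.mem i b.toNat a := by
      intro a
      rw [hσ2, popB_mem, e1]
    refine ⟨σ', _, Ex.loop_step ?_ hbody e, ?_, ?_, ?_, ?_, ?_, ?_⟩
    · intro h'
      have := (hσ.ld_eval5 hK).1 h'
      rw [h0] at this
      simp at this
    · rw [List.length_cons]
      omega
    · rw [update_idem] at r
      exact r
    · rw [c9', List.length_cons]
      omega
    · intro a ha
      rw [cm a (by omega), m2, update_of_ne (by omega)]
    · intro j hj
      cases j with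
      | zero =>
        rw [cm (i + 0) (by omega), m2, add_zero, update_self]
        rfl
      | succ j =>
        have := cl j (by simpa using hj)
        rw [show i + (j + 1) = i + 1 + j by omega, this]
        rfl
    · rw [cd, hσ2, popB_drawn, e1]

theorem readK_run {w K H k : ℕ} (ρ : ℕ → ℕ) (hw : 1 ≤ w)
    (hlow : H < 2 ^ (w - 1)) (hK : k < K) (l : List Bool) (S : Store) (σ : St) (h0 : S k = l)
    (hl : l.length ≤ H) (hσ : Rep w K S σ) :
    ∃ σ' t, Ex w ρ (readK k) σ σ' t ∧ t ≤ 3 + 6 * l.length ∧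
      Rep w K (update S k []) σ' ∧ σ'.regs 9 = l.length ∧
      (∀ j (hj : j < l.length), σ'.mem j = (l[j]).toNat) ∧ σ'.drawn = σ.drawn := by
  set σ1 := effs w ρ [.const 9 0] σ with hσ1
  have r1 : Rep w K S σ1 := by
    simp only [hσ1, effs_cons, effs_nil, Op.eff]
    exact hσ.scratch _ (by omega)
  have h9 : σ1.regs 9 = 0 := by
    simp [hσ1, Op.eff]
  obtain ⟨σ', t, e, ht, r, c9, _, cl, cd⟩ := readK_loop ρ hw hlow hK l 0 S σ1 h0 (by omega) r1 h9
  refine ⟨σ', 2 + t, Ex.seq (Ex.blk _ σ) e, by omega, r, by rw [c9]; omega, ?_, cd⟩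
  intro j hj
  have := cl j hj
  rw [zero_add] at this
  exact this

theorem fillN_loop {w K r n : ℕ} (ρ : ℕ → ℕ) (hw : 1 ≤ w)
    (hlow : n < 2 ^ (w - 1)) (hr : 12 + K ≤ r) : ∀ (m i : ℕ) (S : Store) (σ : St), n ≤ i + m →
      i < 2 ^ (w - 1) →
      Rep w K S σ → σ.regs 9 = i → σ.regs 10 = i + 1 → σ.regs r = n →
      ∃ σ' t, Ex w ρ (.loop (.lt r 10) (.blk [.store 3 9, .copy 9 10, .add 10 10 4])) σ σ' t ∧
        t ≤ 1 + 5 * m ∧ Rep w K S σ' ∧ (∀ a, a < i → σ'.mem a = σ.mem a) ∧
        (∀ a, i ≤ a → a < n → σ'.mem a = 0) ∧ σ'.regs r = n ∧ σ'.drawn = σ.drawn := by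
  intro m
  induction m with
  | zero =>
    intro i S σ hn hi hσ h9 h10 hrn
    refine ⟨σ, 1, Ex.loop_done ?_, by omega, hσ, fun _ _ => rfl, ?_, hrn, rfl⟩
    · show σ.regs r < σ.regs 10
      omega
    · intro a _ _
      omega
  | succ m ih =>
    intro i S σ hn hi hσ h9 h10 hrn
    by_cases hin : n ≤ i
    · refine ⟨σ, 1, Ex.loop_done ?_, by omega, hσ, fun _ _ => rfl, ?_, hrn, rfl⟩
      · show σ.regs r < σ.regs 10
        omega
      · intro a _ _
        omega
    · have hB := two_pow_half hw
      set σ1 := effs w ρ [.store 3 9, .copy 9 10, .add 10 10 4] σ with hσ1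
      have e1 : σ1 = { regs := update (update σ.regs 9 (i + 1)) 10 (i + 1 + 1),
                       mem := update σ.mem i 0, drawn := σ.drawn } := by
        simp only [hσ1, effs_cons, effs_nil, Op.eff]
        rw [hσ.zero, h9, h10, update_of_ne (show (10 : ℕ) ≠ 9 by omega), h10,
          update_of_ne (show (4 : ℕ) ≠ 9 by omega), hσ.one,
          Nat.mod_eq_of_lt (show i + 1 + 1 < 2 ^ w by omega)]
      have r1 : Rep w K S σ1 := by
        rw [e1]
        refine ((hσ.scratch (d := 9) (i + 1) (by omega)).scratch (d := 10) (i + 1 + 1)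
          (by omega)).congr rfl rfl rfl rfl rfl (fun _ _ => rfl) ?_
        intro a ha
        show update σ.mem i 0 a = σ.mem a
        rw [update_of_ne (by omega)]
      obtain ⟨σ', t, e, ht, rr, cm, cz, cr, cd⟩ := ih (i + 1) S σ1 (by omega) (by omega) r1
        (by rw [e1]; simp) (by rw [e1]; simp) (by
          rw [e1]
          show update (update σ.regs 9 _) 10 _ r = n
          rw [update_of_ne (by omega), update_of_ne (by omega), hrn])
      refine ⟨σ', _, Ex.loop_step ?_ (Ex.blk _ _) e, ?_, rr, ?_, ?_, cr, ?_⟩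
      · show ¬ σ.regs r < σ.regs 10
        omega
      · simp only [List.length_cons, List.length_nil]
        omega
      · intro a ha
        rw [cm a (by omega), e1]
        show update σ.mem i 0 a = σ.mem a
        rw [update_of_ne (by omega)]
      · intro a ha1 ha2
        by_cases hai : a = i
        · subst hai
          rw [cm a (by omega), e1]
          show update σ.mem a 0 a = 0
          rw [update_self]
        · exact cz a (by omega) ha2
      · rw [cd, e1]

theorem fillN_run {w K r n i : ℕ} (ρ : ℕ → ℕ) (hw : 1 ≤ w)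
    (hlow : n < 2 ^ (w - 1)) (hi : i < 2 ^ (w - 1)) (hr : 12 + K ≤ r) (S : Store) (σ : St)
    (hσ : Rep w K S σ) (h9 : σ.regs 9 = i) (hrn : σ.regs r = n) :
    ∃ σ' t, Ex w ρ (fillN r) σ σ' t ∧ t ≤ 2 + 5 * n ∧ Rep w K S σ' ∧
      (∀ a, a < i → σ'.mem a = σ.mem a) ∧
      (∀ a, i ≤ a → a < n → σ'.mem a = 0) ∧ σ'.regs r = n ∧ σ'.drawn = σ.drawn := by
  have hB := two_pow_half hw
  set σ1 := effs w ρ [.add 10 9 4] σ with hσ1
  have r1 : Rep w K S σ1 := by
    simp only [hσ1, effs_cons, effs_nil, Op.eff]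
    exact hσ.scratch _ (by omega)
  have a9 : σ1.regs 9 = i := by
    simp only [hσ1, effs_cons, effs_nil, Op.eff]
    rw [update_of_ne (by omega), h9]
  have a10 : σ1.regs 10 = i + 1 := by
    simp only [hσ1, effs_cons, effs_nil, Op.eff, update_self]
    rw [h9, hσ.one, Nat.mod_eq_of_lt (by omega)]
  have ar : σ1.regs r = n := by
    simp only [hσ1, effs_cons, effs_nil, Op.eff]
    rw [update_of_ne (by omega), hrn]
  obtain ⟨σ', t, e, ht, rr, cm, cz, cr, cd⟩ := fillN_loop ρ hw hlow hr n i S σ1 (by omega) hi r1 a9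
    a10 ar
  exact ⟨σ', _, Ex.seq (Ex.blk _ _) e, by simp only [List.length_cons, List.length_nil]; omega,
    rr, cm, cz, cr, cd⟩

/-- the whole query -/
def trq (r : ℕ) (b : Bool) (k : ℕ) : OProg :=
  .seq (.base (.seq (readK k) (fillN r))) (.seq (.query b 3 8) (.base (encNumK k)))

theorem trq_run {w K H k : ℕ} (ρ : ℕ → ℕ) (hw : 1 ≤ w) (hH : K * (H + 1) ≤ 2 ^ (w - 1))
    (hK : k < K) (I : Inst) (b : Bool) (S : Store) (σ : St)
    (hσ : Rep w K S σ) (hN : σ.regs (12 + K) = I.n) (hlen : (S k).length ≤ H) (hn : I.n ≤ H)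
    (ha : I.ans b (S k) + 1 < 2 ^ w) (hroom : 2 * (I.ans b (S k)).size + 1 ≤ H) :
    ∃ σ' t, OEx I.O w ρ (trq (12 + K) b k) σ σ' t ∧
      t ≤ 12 + 12 * w + 6 * (S k).length + 5 * I.n ∧
      Rep w K (update S k (I.qry b (S k))) σ' ∧ σ'.regs (12 + K) = I.n ∧ σ'.drawn = σ.drawn := by
  have hlow : H < 2 ^ (w - 1) := by
    have h1 : 1 * (H + 1) ≤ K * (H + 1) := Nat.mul_le_mul_right _ (by omega)
    omega
  obtain ⟨σ1, t1, e1, b1, r1, c9, cl, cd1⟩ := readK_run ρ hw hlow hK (S k) S σ rfl hlen hσ
  have ok1 : (readK k).ok (12 + K) := by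
    refine ⟨?_, ⟨by omega, by omega⟩, ?_⟩
    · intro i hi
      simp only [List.mem_cons, List.not_mem_nil, or_false] at hi
      rcases hi with rfl | rfl <;> simp only [Op.ok] <;> omega
    · intro i hi
      simp only [popB, List.mem_append, List.mem_cons, List.not_mem_nil, or_false] at hi
      rcases hi with ((rfl | rfl) | rfl) | rfl <;> simp only [Op.ok] <;> omega
  have hN1 : σ1.regs (12 + K) = I.n := by
    rw [Ex.frame e1 ok1 (le_refl _), hN]
  obtain ⟨σ2, t2, e2, b2, r2, cm, cz, cr, cd2⟩ := fillN_run (K := K) (r := 12 + K) ρ hw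
    (show I.n < 2 ^ (w - 1) by omega) (show (S k).length < 2 ^ (w - 1) by omega) (le_refl _)
    (update S k []) σ1 r1 c9 hN1
  have hset : qset I.n σ2.mem (σ2.regs 3) = lset I.n (S k) := by
    unfold qset lset
    apply Finset.filter_congr
    intro j _
    rw [r2.zero, zero_add]
    by_cases hj : (j : ℕ) < (S k).length
    · rw [cm _ hj, cl _ hj, List.getElem?_eq_getElem hj]
      cases (S k)[(j : ℕ)] <;> simp
    · rw [cz _ (by omega) j.2, List.getElem?_eq_none (by omega)]
      simp
  set σ3 := qeff I.O w b 3 8 σ2 with hσ3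
  have e3 : σ3 = { σ2 with regs := update σ2.regs 8 (I.ans b (S k)) } := by
    rw [hσ3]
    unfold qeff
    rw [hset, Nat.mod_eq_of_lt (show I.O b (lset I.n (S k)) < 2 ^ w from by
      have : I.ans b (S k) + 1 < 2 ^ w := ha
      unfold Inst.ans at this
      omega)]
    rfl
  have r3 : Rep w K (update S k []) σ3 := by
    rw [e3]
    exact r2.scratch _ (by omega)
  obtain ⟨σ4, t4, e4, b4, r4, cd4⟩ := encNumK_run (a := I.ans b (S k)) ρ hw hH hK ha []
    (update S k []) σ3 r3 (by rw [e3]; simp) (by rw [update_self]) (by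
      simp only [List.length_nil]
      omega)
  have ok4 : (encNumK k).ok (12 + K) := by
    refine ⟨?_, ⟨⟨by omega, by omega⟩, ?_⟩, ?_, ?_⟩
    · intro i hi
      simp only [pushB, List.mem_append, List.mem_cons, List.not_mem_nil, or_false] at hi
      rcases hi with (rfl | rfl) | rfl | rfl <;> simp only [Op.ok] <;> omega
    · intro i hi
      simp only [List.mem_cons, List.not_mem_nil, or_false] at hi
      subst hi
      simp only [Op.ok]; omega
    · simp only [Cond.ok]; omega
    · intro i hi
      simp only [pushB, List.mem_append, List.mem_cons, List.not_mem_nil, or_false] at hi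
      rcases hi with (((rfl | rfl) | rfl | rfl) | rfl | rfl) | rfl <;> simp only [Op.ok] <;> omega
  refine ⟨σ4, _, OEx.seq (OEx.base (Ex.seq e1 e2)) (OEx.seq (OEx.query b 3 8 σ2) (OEx.base e4)),
    by omega, ?_, ?_, ?_⟩
  · rw [update_idem] at r4
    exact r4
  · rw [Ex.frame e4 ok4 (le_refl _), e3]
    show update σ2.regs 8 _ (12 + K) = I.n
    rw [update_of_ne (by omega), cr]
  · rw [cd4, e3]
    show σ2.drawn = σ.drawn
    rw [cd2, cd1]

/-! ### pushing `n` in unary -/

/-- push as many `true`s as register `r` says -/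
def pushN (r k : ℕ) : Prog :=
  .seq (.blk [.copy 9 r]) (.loop (.zero 9) (.blk (pushB k 4 ++ [.sub 9 9 4])))

theorem pushN_loop {w K H k : ℕ} (ρ : ℕ → ℕ) (hw : 1 ≤ w) (hH : K * (H + 1) ≤ 2 ^ (w - 1))
    (hK : k < K) : ∀ (m : ℕ) (S : Store) (σ : St), (S k).length + m ≤ H → Rep w K S σ →
      σ.regs 9 = m →
      ∃ σ' t, Ex w ρ (.loop (.zero 9) (.blk (pushB k 4 ++ [.sub 9 9 4]))) σ σ' t ∧
        t ≤ 1 + 5 * m ∧ Rep w K (update S k (List.replicate m true ++ S k)) σ' ∧
        σ'.drawn = σ.drawn := by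
  intro m
  induction m with
  | zero =>
    intro S σ _ hσ h9
    refine ⟨σ, 1, Ex.loop_done h9, by omega, ?_, rfl⟩
    simpa using hσ
  | succ m ih =>
    intro S σ hlen hσ h9
    have r1 := hσ.pushB (ρ := ρ) (k := k) hK (adr_lt hw hH hK (by omega)) (r := 4) (b := true)
      (by omega) hσ.one
    set σ1 := effs w ρ (pushB k 4) σ with hσ1
    set σ2 := effs w ρ [.sub 9 9 4] σ1 with hσ2
    have r2 : Rep w K (update S k (true :: S k)) σ2 := by
      simp only [hσ2, effs_cons, effs_nil, Op.eff]
      exact r1.scratch _ (by omega)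
    have a9 : σ2.regs 9 = m := by
      simp only [hσ2, effs_cons, effs_nil, Op.eff, update_self]
      rw [r1.one, hσ1, pushB_regs (by omega), h9]
      omega
    obtain ⟨σ', t, e, ht, r, d⟩ := ih (update S k (true :: S k)) σ2 (by
      rw [update_self, List.length_cons]
      omega) r2 a9
    have heff : effs w ρ (pushB k 4 ++ [.sub 9 9 4]) σ = σ2 := by rw [effs_append]
    have hbody : Ex w ρ (.blk (pushB k 4 ++ [.sub 9 9 4])) σ σ2 3 := by
      conv => arg 5; rw [← heff]
      exact Ex.blk _ _
    refine ⟨σ', _, Ex.loop_step ?_ hbody e, by omega, ?_, ?_⟩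
    · show ¬ σ.regs 9 = 0
      omega
    · rw [update_idem, update_self] at r
      rw [List.replicate_succ', List.append_assoc]
      exact r
    · rw [d]
      rfl

theorem pushN_run {w K H k n : ℕ} (ρ : ℕ → ℕ) (hw : 1 ≤ w) (hH : K * (H + 1) ≤ 2 ^ (w - 1))
    (hK : k < K) (S : Store) (σ : St) (hlen : (S k).length + n ≤ H) (hσ : Rep w K S σ)
    (hN : σ.regs (12 + K) = n) :
    ∃ σ' t, Ex w ρ (pushN (12 + K) k) σ σ' t ∧ t ≤ 2 + 5 * n ∧
      Rep w K (update S k (List.replicate n true ++ S k)) σ' ∧ σ'.regs (12 + K) = n ∧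
      σ'.drawn = σ.drawn := by
  set σ1 := effs w ρ [.copy 9 (12 + K)] σ with hσ1
  have r1 : Rep w K S σ1 := by
    simp only [hσ1, effs_cons, effs_nil, Op.eff]
    exact hσ.scratch _ (by omega)
  have a9 : σ1.regs 9 = n := by
    simp only [hσ1, effs_cons, effs_nil, Op.eff, update_self]
    exact hN
  have aN : σ1.regs (12 + K) = n := by
    simp only [hσ1, effs_cons, effs_nil, Op.eff]
    rw [update_of_ne (by omega), hN]
  obtain ⟨σ', t, e, ht, r, d⟩ := pushN_loop ρ hw hH hK n S σ1 hlen r1 a9
  have ok : (Prog.loop (.zero 9) (.blk (pushB k 4 ++ [.sub 9 9 4]))).ok (12 + K) := by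
    refine ⟨?_, ?_⟩
    · simp only [Cond.ok]; omega
    · intro i hi
      simp only [pushB, List.mem_append, List.mem_cons, List.not_mem_nil, or_false] at hi
      rcases hi with (rfl | rfl) | rfl <;> simp only [Op.ok] <;> omega
  refine ⟨σ', _, Ex.seq (Ex.blk _ _) e, ?_, r, ?_, ?_⟩
  · simp only [List.length_cons, List.length_nil]
    omega
  · rw [Ex.frame e ok (le_refl _), aN]
  · rw [d]
    rfl

/-- translation of stack programs with queries; register `12 + K` holds `n` -/
def otr (K : ℕ) : OCmd → OProg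
  | .cmd c => .base (tr c)
  | .query b k => trq (12 + K) b k
  | .ground k => .base (pushN (12 + K) k)
  | .seq c d => .seq (otr K c) (otr K d)
  | .ite k e c d => .seq (.base (.blk [.load 2 (12 + k)]))
      (.ite (.eq 2 5) (otr K e) (.ite (.eq 2 4) (otr K c) (otr K d)))
  | .loop k c => .seq (.base (.blk [.load 2 (12 + k)]))
      (.loop (.eq 2 5) (.seq (otr K c) (.base (.blk [.load 2 (12 + k)]))))

theorem ok_ld {N k : ℕ} (h : k < N) : (Prog.blk [.load 2 (12 + k)]).ok (13 + N) := by
  intro i hi
  simp only [List.mem_cons, List.not_mem_nil, or_false] at hi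
  subst hi
  exact ⟨by omega, by omega⟩

theorem otr_ok {N : ℕ} {c : OCmd} (h : c.maxVar < N) : (otr N c).ok (13 + N) := by
  induction c with
  | cmd c => exact Prog.ok_mono (tr_ok h) (by omega)
  | query b k =>
    have hk : k < N := h
    refine ⟨⟨⟨?_, ⟨by omega, by omega⟩, ?_⟩, ?_, ⟨by omega, by omega⟩, ?_⟩, ⟨by omega, by omega⟩,
      ?_, ⟨⟨by omega, by omega⟩, ?_⟩, ?_, ?_⟩
    · intro i hi
      simp only [List.mem_cons, List.not_mem_nil, or_false] at hi
      rcases hi with rfl | rfl <;> simp only [Op.ok] <;> omega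
    · intro i hi
      simp only [popB, List.mem_append, List.mem_cons, List.not_mem_nil, or_false] at hi
      rcases hi with ((rfl | rfl) | rfl) | rfl <;> simp only [Op.ok] <;> omega
    · intro i hi
      simp only [List.mem_cons, List.not_mem_nil, or_false] at hi
      subst hi
      simp only [Op.ok]; omega
    · intro i hi
      simp only [List.mem_cons, List.not_mem_nil, or_false] at hi
      rcases hi with rfl | rfl | rfl <;> simp only [Op.ok] <;> omega
    · intro i hi
      simp only [pushB, List.mem_append, List.mem_cons, List.not_mem_nil, or_false] at hi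
      rcases hi with (rfl | rfl) | rfl | rfl <;> simp only [Op.ok] <;> omega
    · intro i hi
      simp only [List.mem_cons, List.not_mem_nil, or_false] at hi
      subst hi
      simp only [Op.ok]; omega
    · simp only [Cond.ok]; omega
    · intro i hi
      simp only [pushB, List.mem_append, List.mem_cons, List.not_mem_nil, or_false] at hi
      rcases hi with (((rfl | rfl) | rfl | rfl) | rfl | rfl) | rfl <;> simp only [Op.ok] <;> omega
  | ground k =>
    have hk : k < N := h
    refine ⟨?_, ?_, ?_⟩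
    · intro i hi
      simp only [List.mem_cons, List.not_mem_nil, or_false] at hi
      subst hi
      simp only [Op.ok]; omega
    · simp only [Cond.ok]; omega
    · intro i hi
      simp only [pushB, List.mem_append, List.mem_cons, List.not_mem_nil, or_false] at hi
      rcases hi with (rfl | rfl) | rfl <;> simp only [Op.ok] <;> omega
  | seq c d ihc ihd =>
    simp only [OCmd.maxVar, max_lt_iff] at h
    exact ⟨ihc h.1, ihd h.2⟩
  | ite k e c d ihe ihc ihd =>
    simp only [OCmd.maxVar, max_lt_iff] at h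
    exact ⟨ok_ld h.1, ⟨by omega, by omega⟩, ihe h.2.1, ⟨by omega, by omega⟩, ihc h.2.2.1,
      ihd h.2.2.2⟩
  | loop k c ih =>
    simp only [OCmd.maxVar, max_lt_iff] at h
    exact ⟨ok_ld h.1, ⟨by omega, by omega⟩, ih h.2, ok_ld h.1⟩

/-- the simulation -/
theorem oexec_tr {w K H : ℕ} (ρ : ℕ → ℕ) (hw : 1 ≤ w) (hH : K * (H + 1) ≤ 2 ^ (w - 1))
    (I : Inst) (hI : ∀ b A, I.O b A + 1 < 2 ^ w)
    {c : OCmd} {s s' : Store} {t : ℕ} (h : OExec I c s s' t) :
    c.maxVar < K → (∀ k, (s k).length + t ≤ H) → ∀ σ, Rep w K s σ → σ.regs (12 + K) = I.n →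
      ∃ σ' t', OEx I.O w ρ (otr K c) σ σ' t' ∧ t' ≤ (12 + 12 * w) * t ∧ Rep w K s' σ' ∧
        σ'.regs (12 + K) = I.n ∧ σ'.drawn = σ.drawn := by
  have hwt : ∀ t : ℕ, 0 ≤ 12 * w * t := fun t => Nat.zero_le _
  induction h with
  | @cmd c s s' t h =>
    intro hk hl σ hσ hN
    obtain ⟨σ', t', e, b, r, d⟩ := exec_tr ρ hw hH h hk hl σ hσ
    refine ⟨σ', t', OEx.base e, ?_, r, ?_, d⟩
    · have : 5 * t ≤ (12 + 12 * w) * t := Nat.mul_le_mul_right _ (by omega)
      omega
    · rw [Ex.frame e (tr_ok hk) (le_refl _), hN]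
  | query b k s =>
    intro hk hl σ hσ hN
    have hk' : k < K := hk
    have hlk := hl k
    obtain ⟨σ', t', e, bd, r, nn, d⟩ := trq_run ρ hw hH hk' I b s σ hσ hN (by omega) (by omega)
      (hI _ _) (by omega)
    refine ⟨σ', t', e, ?_, r, nn, d⟩
    have h1 : (12 + 12 * w) * ((s k).length + I.n + 2 * (I.ans b (s k)).size + 2) =
        (12 + 12 * w) + (12 + 12 * w) * ((s k).length + I.n + 2 * (I.ans b (s k)).size + 1) := by
      ring
    have h2 : 12 * ((s k).length + I.n + 2 * (I.ans b (s k)).size + 1) ≤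
        (12 + 12 * w) * ((s k).length + I.n + 2 * (I.ans b (s k)).size + 1) :=
      Nat.mul_le_mul_right _ (by omega)
    omega
  | ground k s =>
    intro hk hl σ hσ hN
    have hk' : k < K := hk
    obtain ⟨σ', t', e, bd, r, nn, d⟩ := pushN_run ρ hw hH hk' s σ (by
      have := hl k
      omega) hσ hN
    refine ⟨σ', t', OEx.base e, ?_, r, nn, d⟩
    have h1 : 12 * (I.n + 1) ≤ (12 + 12 * w) * (I.n + 1) := Nat.mul_le_mul_right _ (by omega)
    omega
  | @seq c d s s' s'' t t' h1 h2 ih1 ih2 =>
    intro hk hl σ hσ hN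
    simp only [OCmd.maxVar, max_lt_iff] at hk
    obtain ⟨σ1, t1, e1, b1, r1, n1, d1⟩ := ih1 hk.1 (fun j => by have := hl j; omega) σ hσ hN
    obtain ⟨σ2, t2, e2, b2, r2, n2, d2⟩ := ih2 hk.2 (fun j => by
      have := hl j
      have := h1.length_le j
      omega) σ1 r1 n1
    refine ⟨σ2, t1 + t2, OEx.seq e1 e2, ?_, r2, n2, d2.trans d1⟩
    rw [Nat.mul_add]
    omega
  | @ite_nil k e c d s s' t hnil _ ih =>
    intro hk hl σ hσ hN
    simp only [OCmd.maxVar, max_lt_iff] at hk
    obtain ⟨σ1, t1, e1, b1, r1, n1, d1⟩ := ih hk.2.1 (fun j => by have := hl j; omega) (ld k σ)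
      (hσ.ld k) (by rw [ld_regs (by omega), hN])
    refine ⟨σ1, _, OEx.seq (OEx.base (Ex.blk _ σ))
      (OEx.ite_true ((hσ.ld_eval5 hk.1).2 hnil) e1), ?_, r1, n1, d1⟩
    simp only [List.length_cons, List.length_nil, Nat.mul_add]
    omega
  | @ite_true k e c d s s' t l hcons _ ih =>
    intro hk hl σ hσ hN
    simp only [OCmd.maxVar, max_lt_iff] at hk
    obtain ⟨σ1, t1, e1, b1, r1, n1, d1⟩ := ih hk.2.2.1 (fun j => by have := hl j; omega) (ld k σ)
      (hσ.ld k) (by rw [ld_regs (by omega), hN])
    refine ⟨σ1, _, OEx.seq (OEx.base (Ex.blk _ σ))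
      (OEx.ite_false ?_ (OEx.ite_true ?_ e1)), ?_, r1, n1, d1⟩
    · exact fun h' => by
        have := (hσ.ld_eval5 hk.1).1 h'
        rw [hcons] at this
        simp at this
    · exact (hσ.ld_eval4 hk.1).2 (by rw [hcons]; rfl)
    · simp only [List.length_cons, List.length_nil, Nat.mul_add]
      omega
  | @ite_false k e c d s s' t l hcons _ ih =>
    intro hk hl σ hσ hN
    simp only [OCmd.maxVar, max_lt_iff] at hk
    obtain ⟨σ1, t1, e1, b1, r1, n1, d1⟩ := ih hk.2.2.2 (fun j => by have := hl j; omega) (ld k σ)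
      (hσ.ld k) (by rw [ld_regs (by omega), hN])
    refine ⟨σ1, _, OEx.seq (OEx.base (Ex.blk _ σ))
      (OEx.ite_false ?_ (OEx.ite_false ?_ e1)), ?_, r1, n1, d1⟩
    · exact fun h' => by
        have := (hσ.ld_eval5 hk.1).1 h'
        rw [hcons] at this
        simp at this
    · exact fun h' => by
        have := (hσ.ld_eval4 hk.1).1 h'
        rw [hcons] at this
        simp at this
    · simp only [List.length_cons, List.length_nil, Nat.mul_add]
      omega
  | @loop_nil k c s hnil =>
    intro hk hl σ hσ hN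
    simp only [OCmd.maxVar, max_lt_iff] at hk
    refine ⟨ld k σ, _, OEx.seq (OEx.base (Ex.blk _ σ))
      (OEx.loop_done ((hσ.ld_eval5 hk.1).2 hnil)), ?_, hσ.ld k, by rw [ld_regs (by omega), hN], rfl⟩
    simp only [List.length_cons, List.length_nil]
    omega
  | @loop_cons k c s s' s'' t t' hne h1 _ ih1 ih2 =>
    intro hk hl σ hσ hN
    have hk' := hk
    simp only [OCmd.maxVar, max_lt_iff] at hk
    obtain ⟨σ1, t1, e1, b1, r1, n1, d1⟩ := ih1 hk.2 (fun j => by have := hl j; omega) (ld k σ)
      (hσ.ld k) (by rw [ld_regs (by omega), hN])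
    obtain ⟨σ2, t2, e2, b2, r2, n2, d2⟩ := ih2 hk' (fun j => by
      have := hl j
      have := h1.length_le j
      omega) σ1 r1 n1
    have e2' : ∃ t3, OEx I.O w ρ (.loop (.eq 2 5) (.seq (otr K c)
        (.base (.blk [.load 2 (12 + k)])))) (ld k σ1) σ2 t3 ∧ t2 = 1 + t3 := by
      cases e2 with
      | seq a b =>
        cases a with
        | base a =>
          cases a with
          | blk => exact ⟨_, b, rfl⟩
    obtain ⟨t3, e3, rfl⟩ := e2'
    refine ⟨σ2, _, OEx.seq (OEx.base (Ex.blk _ σ))
      (OEx.loop_step ?_ (OEx.seq e1 (OEx.base (Ex.blk _ _))) e3), ?_, r2, n2, d2.trans d1⟩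
    · exact fun h' => hne ((hσ.ld_eval5 hk.1).1 h')
    · simp only [List.length_cons, List.length_nil, Nat.mul_add]
      omega

end Crest.Agent.R302.ORAM
private theorem rz_8cd28eb35a : type_of% @_root_.Crest.Agent.R302.ORAM.OCmd.maxVar.eq_def := @_root_.Crest.Agent.R302.ORAM.OCmd.maxVar.eq_def -- L55
private theorem rz_ed3b94716d : type_of% @_root_.Crest.Agent.R302.ORAM.OCmd.maxVar.eq_1 := @_root_.Crest.Agent.R302.ORAM.OCmd.maxVar.eq_1 -- L55
end

-- ▼ part R302/ORAM/OPT
section

/-!
# Polynomial-time functions relative to an oracle: bit strings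

`OPT f` for `f : Inst → List Bool → List Bool`: one program with queries computes `f I x` for every
instance `I` within `p (|x| + I.sz)` steps.
-/

set_option autoImplicit false
set_option linter.dupNamespace false

namespace Crest.Agent.R302.ORAM

open Crest.Agent.R309.RAM
open Crest.Agent.Lib.PT Function

/-! ### running programs -/

/-- `c` leads from `s` to `s'` in at most `n` steps. -/
def ORun (I : Inst) (c : OCmd) (s s' : Store) (n : ℕ) : Prop := ∃ t, t ≤ n ∧ OExec I c s s' t

section run

variable {I : Inst}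

theorem ORun.mono {c : OCmd} {s s' : Store} {n m : ℕ} (h : ORun I c s s' n) (hm : n ≤ m) :
    ORun I c s s' m := by
  obtain ⟨t, ht, h⟩ := h
  exact ⟨t, ht.trans hm, h⟩

theorem ORun.cmd {c : Cmd} {s s' : Store} {n : ℕ} (h : Run c s s' n) :
    ORun I (.cmd c) s s' n := by
  obtain ⟨t, ht, h⟩ := h
  exact ⟨t, ht, OExec.cmd h⟩

theorem ORun.seq {c d : OCmd} {s s' s'' : Store} {n m : ℕ} (h : ORun I c s s' n)
    (h' : ORun I d s' s'' m) : ORun I (OCmd.seq c d) s s'' (n + m) := by
  obtain ⟨t, ht, h⟩ := h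
  obtain ⟨t', ht', h'⟩ := h'
  exact ⟨t + t', Nat.add_le_add ht ht', OExec.seq h h'⟩

theorem ORun.ite_nil {k : ℕ} {e c d : OCmd} {s s' : Store} {n : ℕ} (hk : s k = [])
    (h : ORun I e s s' n) : ORun I (OCmd.ite k e c d) s s' (1 + n) := by
  obtain ⟨t, ht, h⟩ := h
  exact ⟨1 + t, Nat.add_le_add_left ht 1, OExec.ite_nil hk h⟩

theorem ORun.ite_true {k : ℕ} {e c d : OCmd} {s s' : Store} {n : ℕ} {l : List Bool}
    (hk : s k = true :: l) (h : ORun I c s s' n) : ORun I (OCmd.ite k e c d) s s' (1 + n) := by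
  obtain ⟨t, ht, h⟩ := h
  exact ⟨1 + t, Nat.add_le_add_left ht 1, OExec.ite_true hk h⟩

theorem ORun.ite_false {k : ℕ} {e c d : OCmd} {s s' : Store} {n : ℕ} {l : List Bool}
    (hk : s k = false :: l) (h : ORun I d s s' n) : ORun I (OCmd.ite k e c d) s s' (1 + n) := by
  obtain ⟨t, ht, h⟩ := h
  exact ⟨1 + t, Nat.add_le_add_left ht 1, OExec.ite_false hk h⟩

theorem ORun.loop_nil {k : ℕ} {c : OCmd} {s : Store} (hk : s k = []) :
    ORun I (OCmd.loop k c) s s 1 := ⟨1, le_rfl, OExec.loop_nil hk⟩

theorem ORun.loop_cons {k : ℕ} {c : OCmd} {s s' s'' : Store} {n m : ℕ} (hk : s k ≠ [])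
    (h : ORun I c s s' n) (h' : ORun I (OCmd.loop k c) s' s'' m) :
    ORun I (OCmd.loop k c) s s'' (1 + n + m) := by
  obtain ⟨t, ht, h⟩ := h
  obtain ⟨t', ht', h'⟩ := h'
  exact ⟨1 + t + t', by omega, OExec.loop_cons hk h h'⟩

theorem ORun.of_eq {c : OCmd} {s s' s'' : Store} {n m : ℕ} (h : ORun I c s s' n) (hs : s' = s'')
    (hn : n ≤ m) : ORun I c s s'' m := hs ▸ h.mono hn

end run

/-! ### shifting -/

/-- Rename stack `k` to `k + m`. -/
def OCmd.shift (m : ℕ) : OCmd → OCmd
  | .cmd c => .cmd (c.shift m)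
  | .query b k => .query b (k + m)
  | .ground k => .ground (k + m)
  | .seq c d => .seq (c.shift m) (d.shift m)
  | .ite k e c d => .ite (k + m) (e.shift m) (c.shift m) (d.shift m)
  | .loop k c => .loop (k + m) (c.shift m)

theorem OExec.shift {I : Inst} {c : OCmd} {s s' : Store} {t : ℕ} (h : OExec I c s s' t) (m : ℕ)
    (S : Store) : OExec I (c.shift m) (glue m S s) (glue m S s') t := by
  induction h with
  | cmd h => exact OExec.cmd (h.shift m S)
  | query b k s =>
    rw [glue_update]
    have := OExec.query (I := I) b (k + m) (glue m S s)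
    rwa [glue_add] at this
  | ground k s =>
    rw [glue_update]
    have := OExec.ground (I := I) (k + m) (glue m S s)
    rwa [glue_add] at this
  | seq _ _ ih1 ih2 => exact OExec.seq ih1 ih2
  | ite_nil hk _ ih => exact OExec.ite_nil (by rw [glue_add]; exact hk) ih
  | ite_true hk _ ih => exact OExec.ite_true (by rw [glue_add]; exact hk) ih
  | ite_false hk _ ih => exact OExec.ite_false (by rw [glue_add]; exact hk) ih
  | loop_nil hk => exact OExec.loop_nil (by rw [glue_add]; exact hk)
  | loop_cons hk _ _ ih1 ih2 => exact OExec.loop_cons (by rw [glue_add]; exact hk) ih1 ih2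

/-- On the domain `D`, `f` is computed by a program with queries in polynomially many steps. -/
def OPT (D : Inst → List Bool → Prop) (f : Inst → List Bool → List Bool) : Prop :=
  ∃ (c : OCmd) (p : Polynomial ℕ), ∀ I x, D I x →
    ORun I c (init x) (init (f I x)) (p.eval (x.length + I.sz))

/-- calling a program on stack `m` when all higher stacks are empty. -/
theorem ocall_run {I : Inst} {c : OCmd} {x y : List Bool} {n : ℕ} (h : ORun I c (init x) (init y) n)
    (m : ℕ) (S : Store) (hm : S m = x) (hS : ∀ j, m < j → S j = []) :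
    ORun I (c.shift m) S (update S m y) n := by
  obtain ⟨t, ht, h⟩ := h
  refine ⟨t, ht, ?_⟩
  have e1 : glue m S (init x) = S := by
    funext j
    unfold glue init
    by_cases hj : j < m
    · rw [if_pos hj]
    · rw [if_neg hj]
      by_cases h0 : j - m = 0
      · have : j = m := by omega
        rw [if_pos h0, this, hm]
      · rw [if_neg h0, hS j (by omega)]
  have e2 : glue m S (init y) = update S m y := by
    funext j
    unfold glue init
    by_cases hj : j < m
    · have : j ≠ m := by omega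
      rw [if_pos hj, update_of_ne this]
    · rw [if_neg hj]
      by_cases h0 : j - m = 0
      · have : j = m := by omega
        rw [if_pos h0, this, update_self]
      · have : j ≠ m := by omega
        rw [if_neg h0, update_of_ne this, hS j (by omega)]
  have := h.shift m S
  rwa [e1, e2] at this

theorem OPT.bound {D : Inst → List Bool → Prop} {f : Inst → List Bool → List Bool}
    (hf : OPT D f) : ∃ p : Polynomial ℕ, ∀ I x, D I x →
      (f I x).length ≤ p.eval (x.length + I.sz) := by
  obtain ⟨c, p, h⟩ := hf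
  refine ⟨Polynomial.X + p, fun I x hx => ?_⟩
  obtain ⟨t, ht, h⟩ := h I x hx
  have := h.length_le 0
  simp only [init_zero] at this
  simp only [Polynomial.eval_add, Polynomial.eval_X]
  omega

theorem OPT.congr {D : Inst → List Bool → Prop} {f g : Inst → List Bool → List Bool}
    (hf : OPT D f) (h : ∀ I x, D I x → f I x = g I x) : OPT D g := by
  obtain ⟨c, p, hc⟩ := hf
  exact ⟨c, p, fun I x hx => by rw [← h I x hx]; exact hc I x hx⟩

theorem OPT.weaken {D D' : Inst → List Bool → Prop} {f : Inst → List Bool → List Bool}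
    (hf : OPT D f) (h : ∀ I x, D' I x → D I x) : OPT D' f := by
  obtain ⟨c, p, hc⟩ := hf
  exact ⟨c, p, fun I x hx => hc I x (h I x hx)⟩

theorem OPT.of_pt {D : Inst → List Bool → Prop} {f : List Bool → List Bool} (hf : PT f) :
    OPT D (fun _ x => f x) := by
  obtain ⟨c, p, h⟩ := hf
  exact ⟨.cmd c, p, fun I x _ => (ORun.cmd (h x)).mono (polyEval_mono p (by omega))⟩

theorem OPT.comp {D D' : Inst → List Bool → Prop} {f g : Inst → List Bool → List Bool}
    (hg : OPT D' g) (hf : OPT D f) (hD : ∀ I x, D I x → D' I (f I x)) :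
    OPT D (fun I x => g I (f I x)) := by
  obtain ⟨b, hb⟩ := hf.bound
  obtain ⟨c, p, hc⟩ := hf
  obtain ⟨d, q, hd⟩ := hg
  refine ⟨.seq c d, p + q.comp (b + Polynomial.X), fun I x hx => ?_⟩
  refine ((hc I x hx).seq (hd I (f I x) (hD I x hx))).mono ?_
  rw [Polynomial.eval_add, Polynomial.eval_comp, Polynomial.eval_add, Polynomial.eval_X]
  exact Nat.add_le_add_left (polyEval_mono q (Nat.add_le_add (hb I x hx) (by omega))) _

/-- the query -/
theorem OPT.qry {D : Inst → List Bool → Prop} (b : Bool) : OPT D (fun I x => I.qry b x) := by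
  refine ⟨.query b 0, 3 * Polynomial.X + 2, fun I x _ => ?_⟩
  refine ⟨x.length + I.n + 2 * (I.ans b x).size + 2, ?_, ?_⟩
  · have h1 := I.hn
    have h2 := I.ans_size b x
    simp only [Polynomial.eval_add, Polynomial.eval_mul, Polynomial.eval_ofNat, Polynomial.eval_X]
    omega
  · have := OExec.query (I := I) b 0 (init x)
    have e : update (init x) 0 (I.qry b (init x 0)) = init (I.qry b x) := by
      funext j
      rcases j with _ | j <;> simp [init]
    rw [e] at this
    simpa using this

/-- the size of the ground set in unary -/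
theorem OPT.ground {D : Inst → List Bool → Prop} : OPT D (fun I _ => List.replicate I.n true) := by
  refine ⟨.seq (.cmd (clear 0)) (.ground 0), 3 * Polynomial.X + 2, fun I x _ => ?_⟩
  have h1 : ORun I (.cmd (clear 0)) (init x) (init []) (2 * x.length + 1) :=
    ORun.cmd ((run_clear 0 _).of_eq (by
      funext j
      rcases j with _ | j <;> simp [init]) (by simp))
  have h2 : ORun I (.ground 0) (init []) (init (List.replicate I.n true)) (I.n + 1) := by
    refine ⟨_, le_rfl, ?_⟩
    have := OExec.ground (I := I) 0 (init [])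
    have e : update (init []) 0 (List.replicate I.n true ++ init [] 0) =
        init (List.replicate I.n true) := by
      funext j
      rcases j with _ | j <;> simp [init]
    rwa [e] at this
  refine (h1.seq h2).mono ?_
  have h3 := I.hn
  simp only [Polynomial.eval_add, Polynomial.eval_mul, Polynomial.eval_ofNat, Polynomial.eval_X]
  omega

theorem ocall_one {I : Inst} {c : OCmd} {x y : List Bool} {n : ℕ}
    (h : ORun I c (init x) (init y) n)
    (a : List Bool) : ORun I (c.shift 1) (st4 a x [] []) (st4 a y [] []) n := by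
  refine (ocall_run h 1 (st4 a x [] []) rfl ?_).of_eq (by simp) le_rfl
  intro j hj
  rcases j with _ | _ | _ | _ | j
  · omega
  · omega
  all_goals rfl

theorem ocall_two {I : Inst} {c : OCmd} {x y : List Bool} {n : ℕ}
    (h : ORun I c (init x) (init y) n)
    (a b : List Bool) : ORun I (c.shift 2) (st4 a b x []) (st4 a b y []) n := by
  refine (ocall_run h 2 (st4 a b x []) rfl ?_).of_eq (by simp) le_rfl
  intro j hj
  rcases j with _ | _ | _ | _ | j
  · omega
  · omega
  · omega
  all_goals rfl

/-- Compute `f` and `g` on stack `0`, leaving the results on the stacks `1` and `2`. -/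
def oboth (c d : OCmd) : OCmd :=
  .seq (.cmd dup) (.seq (c.shift 1) (.seq (.cmd (.seq (mv 0 3) (mv 3 2))) (d.shift 2)))

theorem orun_both {I : Inst} {c d : OCmd} {x y z : List Bool} {n m : ℕ}
    (h : ORun I c (init x) (init y) n) (h' : ORun I d (init x) (init z) m) :
    ORun I (oboth c d) (init x) (st4 [] y z []) (n + m + 21 * x.length + 5) := by
  have h1 := run_dup x
  have h2 := ocall_one h x
  have h3 : Run (mv 0 3) (st4 x y [] []) (st4 [] y [] x.reverse) (4 * x.length + 1) :=
    (run_mv (by decide) _).of_eq (by simp) (by simp)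
  have h4 : Run (mv 3 2) (st4 [] y [] x.reverse) (st4 [] y x []) (4 * x.length + 1) :=
    (run_mv (by decide) _).of_eq (by simp) (by simp)
  have h5 := ocall_two h' [] y
  refine ((ORun.cmd h1).seq (h2.seq ((ORun.cmd (h3.seq h4)).seq h5))).mono (by omega)

theorem OPT.pair {D : Inst → List Bool → Prop} {f g : Inst → List Bool → List Bool}
    (hf : OPT D f) (hg : OPT D g) :
    OPT D (fun I x => Crest.Agent.Lib.PT.pair (f I x) (g I x)) := by
  obtain ⟨bf, hbf⟩ := hf.bound
  obtain ⟨bg, hbg⟩ := hg.bound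
  obtain ⟨c, p, hc⟩ := hf
  obtain ⟨d, q, hd⟩ := hg
  refine ⟨.seq (oboth c d) (.cmd (.seq (mv 2 3) (.seq (mv 3 0) (.seq (.push 0 false) (.seq (mv 1 3)
    (mvMap 3 0 (fun b => [true, b]))))))),
    p + q + 21 * Polynomial.X + 12 * bf + 8 * bg + 10, fun I x hx => ?_⟩
  have h1 := orun_both (hc I x hx) (hd I x hx)
  have h2 : Run (mv 2 3) (st4 [] (f I x) (g I x) []) (st4 [] (f I x) [] (g I x).reverse)
      (4 * (g I x).length + 1) := (run_mv (by decide) _).of_eq (by simp) (by simp)
  have h3 : Run (mv 3 0) (st4 [] (f I x) [] (g I x).reverse) (st4 (g I x) (f I x) [] [])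
      (4 * (g I x).length + 1) := (run_mv (by decide) _).of_eq (by simp) (by simp)
  have h4 : Run (.push 0 false) (st4 (g I x) (f I x) [] []) (st4 (false :: g I x) (f I x) [] []) 1 :=
    (run_push 0 false _).of_eq (by simp) (by simp)
  have h5 : Run (mv 1 3) (st4 (false :: g I x) (f I x) [] [])
      (st4 (false :: g I x) [] [] (f I x).reverse)
      (4 * (f I x).length + 1) := (run_mv (by decide) _).of_eq (by simp) (by simp)
  have h6 : Run (mvMap 3 0 (fun b => [true, b])) (st4 (false :: g I x) [] [] (f I x).reverse)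
      (init (Crest.Agent.Lib.PT.pair (f I x) (g I x))) (8 * (f I x).length + 1) := by
    refine (run_mvMap (by decide) _ _).of_eq ?_ (by simp)
    rw [init_eq_st4]
    simp [Crest.Agent.Lib.PT.pair]
  refine (h1.seq (ORun.cmd (h2.seq (h3.seq (h4.seq (h5.seq h6)))))).mono ?_
  have b1 := hbf I x hx
  have b2 := hbg I x hx
  simp only [Polynomial.eval_add, Polynomial.eval_mul, Polynomial.eval_ofNat, Polynomial.eval_X]
  omega

theorem OPT.ite {D : Inst → List Bool → Prop} {c f g : Inst → List Bool → List Bool}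
    (hc : OPT D c) (hf : OPT (fun I x => D I x ∧ (c I x).head? = some true) f)
    (hg : OPT (fun I x => D I x ∧ (c I x).head? ≠ some true) g) :
    OPT D (fun I x => if (c I x).head? = some true then f I x else g I x) := by
  obtain ⟨bc, hbc⟩ := hc.bound
  obtain ⟨cc, r, hcc⟩ := hc
  obtain ⟨cf, p, hcf⟩ := hf
  obtain ⟨cg, q, hcg⟩ := hg
  refine ⟨.seq (.cmd dup) (.seq (cc.shift 1) (.ite 1 cg (.seq (.cmd (clear 1)) cf)
    (.seq (.cmd (clear 1)) cg))),
    r + p + q + 13 * Polynomial.X + 2 * bc + 5, fun I x hx => ?_⟩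
  have h1 := run_dup x
  have h2 := ocall_one (hcc I x hx) x
  have b1 := hbc I x hx
  have h3 : ORun I (.ite 1 cg (.seq (.cmd (clear 1)) cf) (.seq (.cmd (clear 1)) cg))
      (st4 x (c I x) [] [])
      (init (if (c I x).head? = some true then f I x else g I x))
      (2 + 2 * bc.eval (x.length + I.sz) + p.eval (x.length + I.sz) + q.eval (x.length + I.sz)) := by
    have hcl : ORun I (.cmd (clear 1)) (st4 x (c I x) [] []) (init x) (2 * (c I x).length + 1) :=
      ORun.cmd ((run_clear 1 _).of_eq (by simp [init_eq_st4]) (by simp))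
    rcases hcx : c I x with _ | ⟨b, l⟩
    · have := hcg I x ⟨hx, by simp [hcx]⟩
      rw [init_eq_st4 x] at this
      simpa using (ORun.ite_nil (k := 1) (e := cg) (c := .seq (.cmd (clear 1)) cf)
        (d := .seq (.cmd (clear 1)) cg) (s := st4 x [] [] []) rfl this).mono (by omega)
    · rw [hcx] at hcl b1
      cases b
      · simpa using (ORun.ite_false (k := 1) (e := cg) (c := .seq (.cmd (clear 1)) cf)
          (d := .seq (.cmd (clear 1)) cg) (s := st4 x (false :: l) [] []) (l := l) rfl
          (hcl.seq (hcg I x ⟨hx, by simp [hcx]⟩))).mono (by omega)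
      · simpa using (ORun.ite_true (k := 1) (e := cg) (c := .seq (.cmd (clear 1)) cf)
          (d := .seq (.cmd (clear 1)) cg) (s := st4 x (true :: l) [] []) (l := l) rfl
          (hcl.seq (hcf I x ⟨hx, by simp [hcx]⟩))).mono (by omega)
  refine ((ORun.cmd h1).seq (h2.seq h3)).mono ?_
  simp only [Polynomial.eval_add, Polynomial.eval_mul, Polynomial.eval_ofNat, Polynomial.eval_X]
  omega

/-! ### bounded iteration -/

theorem orun_iter_loop {I : Inst} {c : OCmd} {f : List Bool → List Bool} {n : ℕ} (u y : List Bool)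
    (h : ∀ i < u.length, ORun I c (init (f^[i] y)) (init (f (f^[i] y))) n) :
    ORun I (.loop 0 (.seq (.cmd (.pop 0)) (c.shift 1))) (st4 u y [] [])
      (st4 [] (f^[u.length] y) [] []) (u.length * (n + 2) + 1) := by
  induction u generalizing y with
  | nil =>
    exact (ORun.loop_nil (k := 0) (c := .seq (.cmd (.pop 0)) (c.shift 1))
      (s := st4 [] y [] []) rfl).of_eq (by simp) (by simp)
  | cons b u ih =>
    have h1 : ORun I (.cmd (.pop 0)) (st4 (b :: u) y [] []) (st4 u y [] []) 1 :=
      ORun.cmd ((run_pop 0 _).of_eq (by simp) le_rfl)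
    have h2 : ORun I (c.shift 1) (st4 u y [] []) (st4 u (f y) [] []) n :=
      ocall_one (h 0 (by simp)) u
    have h3 := ih (f y) (fun i hi => by
      have := h (i + 1) (by simpa using hi)
      simpa only [iterate_succ, comp_apply] using this)
    refine (ORun.loop_cons (k := 0) (by simp) (h1.seq h2) h3).of_eq (by simp) ?_
    simp only [List.length_cons]
    ring_nf
    omega

/-- Bounded iteration: `u` supplies the number of rounds, `s` the start value. -/
theorem OPT.iter' {D D' : Inst → List Bool → Prop} {f u s : Inst → List Bool → List Bool}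
    (hf : OPT D' f) (hu : OPT D u) (hs : OPT D s)
    (hD : ∀ I x, D I x → ∀ i < (u I x).length, D' I ((f I)^[i] (s I x)))
    (hb : ∃ p : Polynomial ℕ, ∀ I x, D I x → ∀ i ≤ (u I x).length,
      ((f I)^[i] (s I x)).length ≤ p.eval (x.length + I.sz)) :
    OPT D (fun I x => (f I)^[(u I x).length] (s I x)) := by
  obtain ⟨B, hB⟩ := hb
  obtain ⟨bu, hbu⟩ := hu.bound
  obtain ⟨cf, p, hcf⟩ := hf
  obtain ⟨cu, q, hcu⟩ := hu
  obtain ⟨cs, r, hcs⟩ := hs
  refine ⟨.seq (oboth cu cs) (.seq (.cmd (.seq (mv 1 0) (.seq (mv 2 3) (mv 3 1))))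
    (.seq (.loop 0 (.seq (.cmd (.pop 0)) (cf.shift 1))) (.cmd (.seq (mv 1 2) (mv 2 0))))),
    q + r + 21 * Polynomial.X + 4 * bu + bu * (p.comp (B + Polynomial.X) + 2) + 16 * B + 11,
      fun I x hx => ?_⟩
  have h1 := orun_both (hcu I x hx) (hcs I x hx)
  have h2 : Run (mv 1 0) (st4 [] (u I x) (s I x) []) (st4 (u I x).reverse [] (s I x) [])
      (4 * (u I x).length + 1) := (run_mv (by decide) _).of_eq (by simp) (by simp)
  have h3 : Run (mv 2 3) (st4 (u I x).reverse [] (s I x) [])
      (st4 (u I x).reverse [] [] (s I x).reverse) (4 * (s I x).length + 1) :=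
    (run_mv (by decide) _).of_eq (by simp) (by simp)
  have h4 : Run (mv 3 1) (st4 (u I x).reverse [] [] (s I x).reverse)
      (st4 (u I x).reverse (s I x) [] []) (4 * (s I x).length + 1) :=
    (run_mv (by decide) _).of_eq (by simp) (by simp)
  have h5 : ORun I (.loop 0 (.seq (.cmd (.pop 0)) (cf.shift 1))) (st4 (u I x).reverse (s I x) [] [])
      (st4 [] ((f I)^[(u I x).length] (s I x)) [] [])
      ((u I x).length * (p.eval (B.eval (x.length + I.sz) + (x.length + I.sz)) + 2) + 1) := by
    have := orun_iter_loop (I := I) (c := cf) (f := f I)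
      (n := p.eval (B.eval (x.length + I.sz) + (x.length + I.sz))) (u I x).reverse (s I x)
      (fun i hi => (hcf I _ (hD I x hx i (by simpa using hi))).mono (polyEval_mono p
        (Nat.add_le_add (hB I x hx i (by simpa using hi.le)) (by omega))))
    simpa using this
  have h6 : Run (mv 1 2) (st4 [] ((f I)^[(u I x).length] (s I x)) [] [])
      (st4 [] [] ((f I)^[(u I x).length] (s I x)).reverse [])
      (4 * ((f I)^[(u I x).length] (s I x)).length + 1) :=
    (run_mv (by decide) _).of_eq (by simp) (by simp)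
  have h7 : Run (mv 2 0) (st4 [] [] ((f I)^[(u I x).length] (s I x)).reverse [])
      (init ((f I)^[(u I x).length] (s I x)))
      (4 * ((f I)^[(u I x).length] (s I x)).length + 1) :=
    (run_mv (by decide) _).of_eq (by simp [init_eq_st4]) (by simp)
  refine (h1.seq ((ORun.cmd (h2.seq (h3.seq h4))).seq (h5.seq (ORun.cmd (h6.seq h7))))).mono ?_
  have b1 := hbu I x hx
  have b2 := hB I x hx 0 (by simp)
  have b3 := hB I x hx (u I x).length le_rfl
  have b4 : (u I x).length * (p.eval (B.eval (x.length + I.sz) + (x.length + I.sz)) + 2) ≤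
      bu.eval (x.length + I.sz) * (p.eval (B.eval (x.length + I.sz) + (x.length + I.sz)) + 2) :=
    Nat.mul_le_mul_right _ b1
  simp only [iterate_zero, id_eq] at b2
  simp only [Polynomial.eval_add, Polynomial.eval_mul, Polynomial.eval_ofNat, Polynomial.eval_X,
    Polynomial.eval_comp]
  omega

end Crest.Agent.R302.ORAM
end

-- ▼ part R302/ORAM/OPTF

/-!
# Polynomial-time functions relative to an oracle: the typed layer

`OPTF f` for `f : Inst → α → β`: one program with queries takes the code of `a` to the code of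
`f I a` within `p (sz a + I.sz)` steps.  `OPB f`: `f I a ≤ p (sz a + I.sz)`.
-/

set_option autoImplicit false
set_option linter.dupNamespace false

namespace Crest.Agent.R302.ORAM

open Crest.Agent.R309.RAM
open Crest.Agent.Lib.PT Function

/-- the codes of the elements of `α` -/
def Dom (α : Type) [PTCode α] : Inst → List Bool → Prop := fun _ x => ∃ a : α, x = enc a

/-- polynomial time relative to the oracle -/
def OPTF {α β : Type} [PTCode α] [PTCode β] (f : Inst → α → β) : Prop :=
  ∃ g, OPT (Dom α) g ∧ ∀ I a, g I (enc a) = enc (f I a)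

/-- polynomially bounded in the size of the input and the size of the instance -/
def OPB {α : Type} [PTCode α] (f : Inst → α → ℕ) : Prop :=
  ∃ p : Polynomial ℕ, ∀ I a, f I a ≤ p.eval (sz a + I.sz)

section bounds

variable {α β γ : Type} [PTCode α] [PTCode β] [PTCode γ]

theorem OPB.mono {f g : Inst → α → ℕ} (hg : OPB g) (h : ∀ I a, f I a ≤ g I a) : OPB f := by
  obtain ⟨p, hp⟩ := hg
  exact ⟨p, fun I a => (h I a).trans (hp I a)⟩

theorem OPB.of_pb {f : α → ℕ} (hf : PB f) : OPB (fun _ a => f a) := by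
  obtain ⟨p, hp⟩ := hf
  exact ⟨p, fun I a => (hp a).trans (eval_mono p (by omega))⟩

theorem OPB.const (n : ℕ) : OPB (fun _ (_ : α) => n) := OPB.of_pb (PB.const n)

theorem OPB.inst : OPB (fun I (_ : α) => I.sz) := ⟨Polynomial.X, fun I a => by simp⟩

theorem OPB.n : OPB (fun I (_ : α) => I.n) := OPB.inst.mono (fun I _ => I.hn)

theorem OPB.sz : OPB (fun _ (a : α) => sz a) := OPB.of_pb PB.sz

theorem OPB.add {f g : Inst → α → ℕ} (hf : OPB f) (hg : OPB g) :
    OPB (fun I a => f I a + g I a) := by
  obtain ⟨p, hp⟩ := hf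
  obtain ⟨q, hq⟩ := hg
  exact ⟨p + q, fun I a => by
    simp only [Polynomial.eval_add]; exact Nat.add_le_add (hp I a) (hq I a)⟩

theorem OPB.mul {f g : Inst → α → ℕ} (hf : OPB f) (hg : OPB g) :
    OPB (fun I a => f I a * g I a) := by
  obtain ⟨p, hp⟩ := hf
  obtain ⟨q, hq⟩ := hg
  exact ⟨p * q, fun I a => by
    simp only [Polynomial.eval_mul]; exact Nat.mul_le_mul (hp I a) (hq I a)⟩

theorem OPB.pow {f : Inst → α → ℕ} (hf : OPB f) (k : ℕ) : OPB (fun I a => f I a ^ k) := by
  induction k with
  | zero => simpa using OPB.const 1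
  | succ k ih => simpa [pow_succ] using OPB.mul ih hf

theorem OPB.eval {f : Inst → α → ℕ} (p : Polynomial ℕ) (hf : OPB f) :
    OPB (fun I a => p.eval (f I a)) := by
  obtain ⟨q, hq⟩ := hf
  exact ⟨p.comp q, fun I a => by rw [Polynomial.eval_comp]; exact eval_mono p (hq I a)⟩

/-- polynomial bound on the size of the output -/
theorem OPTF.bound {f : Inst → α → β} (hf : OPTF f) : OPB (fun I a => Crest.Agent.Lib.PT.sz (f I a)) := by
  obtain ⟨g, hg, h⟩ := hf
  obtain ⟨p, hp⟩ := hg.bound
  exact ⟨p, fun I a => by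
    have := hp I (enc a) ⟨a, rfl⟩
    rw [h] at this
    exact this⟩

theorem OPB.comp {f : Inst → β → ℕ} {g : Inst → α → β} (hf : OPB f) (hg : OPTF g) :
    OPB (fun I a => f I (g I a)) := by
  obtain ⟨p, hp⟩ := hf
  exact (OPB.eval p (hg.bound.add OPB.inst)).mono (fun I a => hp I (g I a))


end bounds

section basic

variable {α β γ δ : Type} [PTCode α] [PTCode β] [PTCode γ] [PTCode δ]

theorem OPTF.of_eq {f g : Inst → α → β} (hf : OPTF f) (h : ∀ I a, f I a = g I a) : OPTF g := by
  have : f = g := funext fun I => funext (h I)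
  rwa [← this]

/-- A polynomial-time function. -/
theorem OPTF.of_ptf {f : α → β} (hf : PTF f) : OPTF (fun _ a => f a) := by
  obtain ⟨g, hg, h⟩ := hf
  exact ⟨_, OPT.of_pt hg, fun _ a => h a⟩

theorem OPTF.const (b : β) : OPTF (fun _ (_ : α) => b) := OPTF.of_ptf (PTF.const b)

theorem OPTF.id : OPTF (fun _ (a : α) => a) := OPTF.of_ptf PTF.id

theorem OPTF.comp {g : Inst → β → γ} {f : Inst → α → β} (hg : OPTF g) (hf : OPTF f) :
    OPTF (fun I a => g I (f I a)) := by
  obtain ⟨g', hg', hg⟩ := hg
  obtain ⟨f', hf', hf⟩ := hf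
  refine ⟨_, hg'.comp hf' ?_, fun I a => by rw [hf, hg]⟩
  rintro I _ ⟨a, rfl⟩
  exact ⟨f I a, hf I a⟩

/-- post-composition with a polynomial-time function -/
theorem OPTF.post {g : β → γ} {f : Inst → α → β} (hg : PTF g) (hf : OPTF f) :
    OPTF (fun I a => g (f I a)) := (OPTF.of_ptf hg).comp hf

/-- pre-composition with a polynomial-time function -/
theorem OPTF.pre {g : Inst → β → γ} {f : α → β} (hg : OPTF g) (hf : PTF f) :
    OPTF (fun I a => g I (f a)) := hg.comp (OPTF.of_ptf hf)

theorem OPTF.prodMk {f : Inst → α → β} {g : Inst → α → γ} (hf : OPTF f) (hg : OPTF g) :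
    OPTF (fun I a => (f I a, g I a)) := by
  obtain ⟨g', hg', hg⟩ := hg
  obtain ⟨f', hf', hf⟩ := hf
  exact ⟨_, OPT.pair hf' hg', fun I a => by rw [hf, hg]; rfl⟩

theorem OPTF.fst {f : Inst → α → β × γ} (hf : OPTF f) : OPTF (fun I a => (f I a).1) :=
  OPTF.post (g := fun p : β × γ => p.1) PTF.fst hf

theorem OPTF.snd {f : Inst → α → β × γ} (hf : OPTF f) : OPTF (fun I a => (f I a).2) :=
  OPTF.post (g := fun p : β × γ => p.2) PTF.snd hf

/-- a polynomial-time function of two results -/
theorem OPTF.post₂ {g : β → γ → δ} {f : Inst → α → β} {h : Inst → α → γ}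
    (hg : PTF (fun p : β × γ => g p.1 p.2)) (hf : OPTF f) (hh : OPTF h) :
    OPTF (fun I a => g (f I a) (h I a)) :=
  OPTF.post (g := fun p : β × γ => g p.1 p.2) hg (hf.prodMk hh)

/-- a function with a parameter applied to a computed parameter and argument -/
theorem OPTF.comp₂ {g : Inst → β → γ → δ} {f : Inst → α → β} {h : Inst → α → γ}
    (hg : OPTF (fun I (p : β × γ) => g I p.1 p.2)) (hf : OPTF f) (hh : OPTF h) :
    OPTF (fun I a => g I (f I a) (h I a)) :=
  OPTF.comp (g := fun I (p : β × γ) => g I p.1 p.2) hg (hf.prodMk hh)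

theorem OPTF.cond {c : Inst → α → Bool} {f g : Inst → α → β} (hc : OPTF c) (hf : OPTF f)
    (hg : OPTF g) : OPTF (fun I a => bif c I a then f I a else g I a) := by
  obtain ⟨c', hc', hc⟩ := hc
  obtain ⟨f', hf', hf⟩ := hf
  obtain ⟨g', hg', hg⟩ := hg
  refine ⟨_, OPT.ite hc' (hf'.weaken fun I x h => h.1) (hg'.weaken fun I x h => h.1),
    fun I a => ?_⟩
  simp only [hc, enc_bool]
  cases c I a <;> simp [hf, hg]

/-- predicates decidable in polynomial time relative to the oracle -/
def OPTP (p : Inst → α → Prop) : Prop :=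
  ∃ f : Inst → α → Bool, OPTF f ∧ ∀ I a, p I a ↔ f I a = true

theorem OPTP.of_ptp {p : α → Prop} (hp : PTPred p) : OPTP (fun _ a => p a) := by
  obtain ⟨f, hf, h⟩ := hp
  exact ⟨_, OPTF.of_ptf hf, fun _ a => h a⟩


theorem OPTP.comp {p : Inst → β → Prop} {f : Inst → α → β} (hp : OPTP p) (hf : OPTF f) :
    OPTP (fun I a => p I (f I a)) := by
  obtain ⟨g, hg, h⟩ := hp
  exact ⟨_, OPTF.comp hg hf, fun I a => h _ _⟩

theorem OPTP.post {p : β → Prop} {f : Inst → α → β} (hp : PTPred p) (hf : OPTF f) :
    OPTP (fun I a => p (f I a)) := (OPTP.of_ptp hp).comp hf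

theorem OPTP.toOPTF {p : Inst → α → Prop} [∀ I a, Decidable (p I a)] (hp : OPTP p) :
    OPTF (fun I a => decide (p I a)) := by
  obtain ⟨f, hf, h⟩ := hp
  exact hf.of_eq (fun I a => by simp [h])

theorem OPTF.toOPTP {f : Inst → α → Bool} (hf : OPTF f) : OPTP (fun I a => f I a = true) :=
  ⟨f, hf, fun _ _ => Iff.rfl⟩

theorem OPTP.not {p : Inst → α → Prop} (hp : OPTP p) : OPTP (fun I a => ¬ p I a) := by
  obtain ⟨f, hf, h⟩ := hp
  exact ⟨_, OPTF.post (g := fun b : Bool => !b) (by fun_prop) hf, fun I a => by simp [h]⟩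

theorem OPTP.and {p q : Inst → α → Prop} (hp : OPTP p) (hq : OPTP q) :
    OPTP (fun I a => p I a ∧ q I a) := by
  obtain ⟨f, hf, h⟩ := hp
  obtain ⟨g, hg, h'⟩ := hq
  exact ⟨_, OPTF.post₂ (g := fun a b : Bool => a && b) (by fun_prop) hf hg,
    fun I a => by simp [h, h']⟩

theorem OPTP.or {p q : Inst → α → Prop} (hp : OPTP p) (hq : OPTP q) :
    OPTP (fun I a => p I a ∨ q I a) := by
  obtain ⟨f, hf, h⟩ := hp
  obtain ⟨g, hg, h'⟩ := hq
  exact ⟨_, OPTF.post₂ (g := fun a b : Bool => a || b) (by fun_prop) hf hg,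
    fun I a => by simp [h, h']⟩

theorem OPTF.ite {p : Inst → α → Prop} [∀ I a, Decidable (p I a)] {f g : Inst → α → β}
    (hc : OPTP p) (hf : OPTF f) (hg : OPTF g) :
    OPTF (fun I a => if p I a then f I a else g I a) :=
  (OPTF.cond hc.toOPTF hf hg).of_eq (fun I a => by by_cases h : p I a <;> simp [h])

/-! ### case distinctions -/

theorem OPTF.optionCasesOn {s : Inst → α → Option β} {f : Inst → α → δ}
    {g : Inst → α → β → δ} (hs : OPTF s) (hf : OPTF f)
    (hg : OPTF (fun I (p : α × β) => g I p.1 p.2)) :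
    OPTF (fun I a => match s I a with | none => f I a | some b => g I a b) := by
  obtain ⟨s', hs', hs⟩ := hs
  obtain ⟨f', hf', hf⟩ := hf
  obtain ⟨g', hg', hg⟩ := hg
  refine ⟨_, OPT.ite hs' (g := f') (f := fun I x => g' I
    (Crest.Agent.Lib.PT.pair x ((s' I x).tail))) ?_ (hf'.weaken fun I x h => h.1),
    fun I a => ?_⟩
  · refine hg'.comp (OPT.pair (OPT.of_pt PT.id) ((OPT.of_pt (D := fun _ _ => True)
      (PT.tail' PT.id)).comp (hs'.weaken fun I x h => h.1) fun _ _ _ => trivial)) ?_
    rintro I x ⟨⟨a, rfl⟩, h⟩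
    rw [hs] at h
    rcases hb : s I a with _ | b
    · rw [hb] at h
      simp at h
    · exact ⟨(a, b), by rw [hs, hb]; simp⟩
  · simp only [hs]
    cases h : s I a with
    | none => simpa [h] using hf I a
    | some c => simpa [h] using hg I (a, c)


theorem OPTF.listCasesOn {s : Inst → α → List β} {f : Inst → α → δ}
    {g : Inst → α → β → List β → δ} (hs : OPTF s) (hf : OPTF f)
    (hg : OPTF (fun I (p : α × β × List β) => g I p.1 p.2.1 p.2.2)) :
    OPTF (fun I a => match s I a with | [] => f I a | b :: l => g I a b l) := by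
  have h0 : PTF (fun l : List β => match l with | [] => none | b :: l => some (b, l)) :=
    PTF.listCasesOn (s := fun l : List β => l) (f := fun _ => none)
        (g := fun _ b l => some (b, l)) PTF.id (PTF.const _) (by fun_prop)
  exact (OPTF.optionCasesOn (s := fun I a => (match s I a with | [] => none | b :: l => some (b, l)))
    (f := f) (g := fun I a (q : β × List β) => g I a q.1 q.2)
    (OPTF.post (g := fun l : List β => match l with | [] => none | b :: l => some (b, l)) h0 hs)
    hf hg).of_eq (fun I a => by cases s I a <;> rfl)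

end basic

/-! ### the query -/

section query

variable {α : Type} [PTCode α]

/-- query number `b` on the set coded by a bit string -/
theorem OPTF.ansBits {l : Inst → α → Bits} (b : Bool) (hl : OPTF l) :
    OPTF (fun I a => I.ans b (l I a).val) := by
  have h : OPTF (fun I (l : Bits) => I.ans b l.val) := by
    refine ⟨_, (OPT.of_pt (D := fun _ _ => True) PT.fst).comp (OPT.qry (D := Dom Bits) b)
      fun _ _ _ => trivial, fun I a => ?_⟩
    simp only [Inst.qry, fst_pair]
    rfl
  exact h.comp hl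

/-- query number `b` on the set coded by a list of booleans -/
theorem OPTF.ans {l : Inst → α → List Bool} (b : Bool) (hl : OPTF l) :
    OPTF (fun I a => I.ans b (l I a)) :=
  OPTF.ansBits (l := fun I a => Bits.mk (l I a)) b
    (OPTF.post (g := fun l : List Bool => Bits.mk l) (by fun_prop) hl)

/-- the number of the query is also an input -/
theorem OPTF.ans₂ {b : Inst → α → Bool} {l : Inst → α → List Bool} (hb : OPTF b) (hl : OPTF l) :
    OPTF (fun I a => I.ans (b I a) (l I a)) :=
  (OPTF.cond hb (OPTF.ans true hl) (OPTF.ans false hl)).of_eq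
    (fun I a => by cases b I a <;> rfl)

end query

/-! ### unary numbers, iteration and folds -/

section iterate

variable {α β γ δ : Type} [PTCode α] [PTCode β] [PTCode γ] [PTCode δ]

/-- unary polynomial-time functions -/
def OPTU (n : Inst → α → ℕ) : Prop := OPTF (fun I a => Un.mk (n I a))

theorem OPTU.of_eq {f g : Inst → α → ℕ} (hf : OPTU f) (h : ∀ I a, f I a = g I a) : OPTU g := by
  have : f = g := funext fun I => funext (h I)
  rwa [← this]

theorem OPTU.of_ptu {n : α → ℕ} (hn : PTU n) : OPTU (fun _ a => n a) := OPTF.of_ptf hn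

theorem OPTU.const (n : ℕ) : OPTU (fun _ (_ : α) => n) := OPTF.const _

theorem OPTU.post {n : β → ℕ} {f : Inst → α → β} (hn : PTU n) (hf : OPTF f) :
    OPTU (fun I a => n (f I a)) := OPTF.post (g := fun b => Un.mk (n b)) hn hf

theorem OPTU.comp {n : Inst → β → ℕ} {f : Inst → α → β} (hn : OPTU n) (hf : OPTF f) :
    OPTU (fun I a => n I (f I a)) := OPTF.comp (g := fun I b => Un.mk (n I b)) hn hf

theorem OPTU.opb {n : Inst → α → ℕ} (hn : OPTU n) : OPB n :=
  (OPTF.bound hn).mono (fun I a => by simp)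

theorem OPTU.toOPTF {n : Inst → α → ℕ} (hn : OPTU n) : OPTF n :=
  OPTF.post (g := fun u : Un => u.val) (f := fun I a => Un.mk (n I a))
    (PTU.toPTF (PTU.val PTF.id)) hn

/-- the size of the ground set is readable -/
theorem OPTU.ground : OPTU (fun I (_ : α) => I.n) :=
  ⟨_, OPT.ground, fun I a => by rw [enc_un]⟩

theorem OPTF.ground : OPTF (fun I (_ : α) => I.n) := OPTU.ground.toOPTF

theorem OPTF.iterate {n : Inst → γ → ℕ} {f : Inst → γ → α → α} {a : Inst → γ → α}
    (hn : OPTU n) (hf : OPTF (fun I (p : γ × α) => f I p.1 p.2)) (ha : OPTF a)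
    {B : Inst → γ → ℕ} (hB : OPB B)
    (hb : ∀ I c, ∀ i ≤ n I c, sz ((f I c)^[i] (a I c)) ≤ B I c) :
    OPTF (fun I c => (f I c)^[n I c] (a I c)) := by
  obtain ⟨p, hp⟩ := hB
  obtain ⟨nR, hnR, hn⟩ := hn
  obtain ⟨fR, hfR, hf⟩ := hf
  obtain ⟨aR, haR, ha⟩ := ha
  let S : Inst → List Bool → List Bool := fun I s =>
    Crest.Agent.Lib.PT.pair (Crest.Agent.Lib.PT.fst s) (fR I s)
  have hS : OPT (Dom (γ × α)) S := OPT.pair (OPT.of_pt PT.fst) hfR
  have key : ∀ I c i, (S I)^[i] (Crest.Agent.Lib.PT.pair (enc c) (enc (a I c))) =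
      Crest.Agent.Lib.PT.pair (enc c) (enc ((f I c)^[i] (a I c))) := by
    intro I c i
    induction i with
    | zero => rfl
    | succ i ih =>
      rw [Function.iterate_succ_apply', ih, Function.iterate_succ_apply']
      have h1 := hf I (c, (f I c)^[i] (a I c))
      simp only [enc_prod] at h1
      simp only [S, fst_pair, h1]
  have hit : OPT (Dom γ) (fun I x => (S I)^[(nR I x).length]
      (Crest.Agent.Lib.PT.pair x (aR I x))) := by
    refine OPT.iter' (D' := Dom (γ × α)) hS hnR (OPT.pair (OPT.of_pt PT.id) haR) ?_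
      ⟨2 * Polynomial.X + 1 + p, ?_⟩
    · rintro I _ ⟨c, rfl⟩ i _
      rw [ha, key]
      exact ⟨(c, (f I c)^[i] (a I c)), rfl⟩
    · rintro I _ ⟨c, rfl⟩ i hi
      rw [hn, enc_un, List.length_replicate] at hi
      rw [ha, key, length_pair]
      have h1 := (hb I c i hi).trans (hp I c)
      have h2 : (enc c).length = sz c := rfl
      have h3 : (enc ((f I c)^[i] (a I c))).length = sz ((f I c)^[i] (a I c)) := rfl
      rw [h2, h3]
      simp only [Polynomial.eval_add, Polynomial.eval_mul, Polynomial.eval_ofNat,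
        Polynomial.eval_X, Polynomial.eval_one]
      omega
  refine ⟨_, (OPT.of_pt (D := fun _ _ => True) PT.snd).comp hit fun _ _ _ => trivial,
    fun I c => ?_⟩
  simp only [hn, ha, enc_un, List.length_replicate, key, snd_pair]

/-- Left fold with a parameter. -/
theorem OPTF.foldl {l : Inst → γ → List α} {f : Inst → γ → β → α → β} {b : Inst → γ → β}
    (hl : OPTF l) (hf : OPTF (fun I (p : γ × β × α) => f I p.1 p.2.1 p.2.2)) (hb : OPTF b)
    {B : Inst → γ → ℕ} (hB : OPB B)
    (hbd : ∀ I c, ∀ i ≤ (l I c).length,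
      sz (((l I c).take i).foldl (f I c) (b I c)) ≤ B I c) :
    OPTF (fun I c => (l I c).foldl (f I c) (b I c)) := by
  have hstep : OPTF (fun I (q : γ × (List α × β)) =>
      match q.2.1 with
      | [] => q.2
      | a :: t => (t, f I q.1 q.2.2 a)) := by
    refine OPTF.listCasesOn (s := fun _ (p : γ × List α × β) => p.2.1) (f := fun _ p => p.2)
      (g := fun I p a t => (t, f I p.1 p.2.2 a)) (OPTF.of_ptf (by fun_prop))
      (OPTF.of_ptf (by fun_prop)) ?_
    refine OPTF.prodMk (OPTF.of_ptf (by fun_prop)) ?_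
    exact OPTF.pre (g := fun I (p : γ × β × α) => f I p.1 p.2.1 p.2.2)
      (f := fun p : (γ × List α × β) × α × List α => (p.1.1, p.1.2.2, p.2.1)) hf (by fun_prop)
  have key : ∀ (I : Inst) (c : γ) (i : ℕ), (fun (s : List α × β) =>
      match s.1 with
      | [] => s
      | a :: t => (t, f I c s.2 a))^[i] (l I c, b I c) =
      ((l I c).drop i, ((l I c).take i).foldl (f I c) (b I c)) := by
    intro I c i
    induction i with
    | zero => simp
    | succ i ih =>
      rw [Function.iterate_succ_apply', ih]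
      rcases hd : (l I c).drop i with _ | ⟨a, t⟩
      · have h1 : (l I c).length ≤ i := by simpa using hd
        simp [List.take_of_length_le h1, List.take_of_length_le (Nat.le_succ_of_le h1),
          List.drop_of_length_le (Nat.le_succ_of_le h1)]
      · have h1 : i < (l I c).length := by
          by_contra h
          rw [List.drop_of_length_le (by omega)] at hd
          simp at hd
        have h2 : (l I c).drop (i + 1) = t := by
          rw [← List.tail_drop, hd]; rfl
        have h3 : (l I c).take (i + 1) = (l I c).take i ++ [a] := by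
          rw [List.take_add_one]
          have : (l I c)[i]? = some a := by
            have := congrArg List.head? hd
            simpa [List.head?_drop] using this
          simp [this]
        simp [h2, h3]
  have hlen : OPTU (fun I c => (l I c).length) :=
    OPTU.post (n := fun l : List α => l.length) (PTU.length PTF.id) hl
  have h := OPTF.iterate (f := fun I (c : γ) (s : List α × β) =>
      match s.1 with
      | [] => s
      | a :: t => (t, f I c s.2 a)) hlen hstep (hl.prodMk hb)
    (B := fun I c => 2 * sz (l I c) + 1 + B I c)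
    (((OPB.const 2).mul hl.bound |>.add (OPB.const 1)).add hB) (fun I c i hi => by
      rw [key]
      simp only [sz_prod]
      have h1 := sz_drop_le (l I c) i
      have h2 := hbd I c i hi
      omega)
  refine OPTF.of_eq (OPTF.snd h) (fun I c => ?_)
  rw [key]
  simp

/-- map with a parameter -/
theorem OPTF.map {l : Inst → γ → List α} {f : Inst → γ → α → β} (hl : OPTF l)
    (hf : OPTF (fun I (p : γ × α) => f I p.1 p.2)) :
    OPTF (fun I c => (l I c).map (f I c)) := by
  obtain ⟨p, hp⟩ := hf.bound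
  have h : OPTF (fun I c => (l I c).foldl (fun acc a => f I c a :: acc) []) := by
    refine OPTF.foldl (f := fun I c acc a => f I c a :: acc) hl ?_ (OPTF.const [])
      (B := fun I c => sz (l I c) * (2 * p.eval (2 * sz c + 1 + sz (l I c) + I.sz) + 1)) ?_ ?_
    · exact OPTF.post₂ (g := fun (b : β) (l : List β) => b :: l) (by fun_prop)
        (OPTF.pre (g := fun I (p : γ × α) => f I p.1 p.2)
          (f := fun p : γ × List β × α => (p.1, p.2.2)) hf (by fun_prop))
        (OPTF.of_ptf (by fun_prop))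
    · exact hl.bound.mul (((OPB.const 2).mul (OPB.eval p ((((OPB.const 2).mul OPB.sz).add
        (OPB.const 1) |>.add hl.bound).add OPB.inst))).add (OPB.const 1))
    · intro I c i hi
      rw [foldl_cons_map]
      simp only [List.append_nil, sz_reverse]
      refine (sz_list_le (m := p.eval (2 * sz c + 1 + sz (l I c) + I.sz)) ?_).trans ?_
      · intro b hb
        rw [List.mem_map] at hb
        obtain ⟨a, ha, rfl⟩ := hb
        refine (hp I (c, a)).trans (eval_mono p ?_)
        rw [sz_prod]
        have := sz_mem_le (List.mem_of_mem_take ha)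
        simp only
        omega
      · refine Nat.mul_le_mul_right _ ?_
        rw [List.length_map, List.length_take]
        exact (Nat.min_le_right _ _).trans (length_le_sz _)
  exact (OPTF.post (g := fun l : List β => l.reverse) (by fun_prop) h).of_eq (fun I c => by
    rw [foldl_cons_map]
    simp)

/-- filter with a parameter -/
theorem OPTF.filter {l : Inst → γ → List α} {p : Inst → γ → α → Bool} (hl : OPTF l)
    (hp : OPTF (fun I (q : γ × α) => p I q.1 q.2)) :
    OPTF (fun I c => (l I c).filter (p I c)) := by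
  have h1 : OPTF (fun I c => (l I c).map (fun a => (a, p I c a))) :=
    OPTF.map (f := fun I c a => (a, p I c a)) hl (OPTF.prodMk (OPTF.of_ptf (by fun_prop)) hp)
  refine (OPTF.post (g := fun l : List (α × Bool) => (l.filter (fun q => q.2)).map (fun q => q.1))
    ?_ h1).of_eq (fun I c => ?_)
  · exact PTF.map (f := fun _ (q : α × Bool) => q.1) (PTF.filter (p := fun _ (q : α × Bool) => q.2)
      PTF.id (by pt_prop)) (by pt_prop)
  · induction l I c with
    | nil => rfl
    | cons a t ih =>
      simp only [List.map_cons, List.filter_cons]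
      cases h : p I c a
      · simpa using ih
      · simpa using ih

theorem OPTF.any {l : Inst → γ → List α} {p : Inst → γ → α → Bool} (hl : OPTF l)
    (hp : OPTF (fun I (q : γ × α) => p I q.1 q.2)) :
    OPTF (fun I c => (l I c).any (p I c)) := by
  refine (OPTF.post (g := fun l : List Bool => l.any (fun b => b)) ?_
    (OPTF.map hl hp)).of_eq (fun I c => by rw [List.any_map]; rfl)
  exact PTF.any (p := fun _ b => b) PTF.id (by pt_prop)

theorem OPTF.all {l : Inst → γ → List α} {p : Inst → γ → α → Bool} (hl : OPTF l)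
    (hp : OPTF (fun I (q : γ × α) => p I q.1 q.2)) :
    OPTF (fun I c => (l I c).all (p I c)) := by
  refine (OPTF.post (g := fun l : List Bool => l.all (fun b => b)) ?_
    (OPTF.map hl hp)).of_eq (fun I c => by rw [List.all_map]; rfl)
  exact PTF.all (p := fun _ b => b) PTF.id (by pt_prop)

theorem OPTF.flatMap {l : Inst → γ → List α} {f : Inst → γ → α → List β} (hl : OPTF l)
    (hf : OPTF (fun I (p : γ × α) => f I p.1 p.2)) :
    OPTF (fun I c => (l I c).flatMap (f I c)) := by
  refine (OPTF.post (g := fun l : List (List β) => l.flatten) (PTF.flatten PTF.id)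
    (OPTF.map hl hf)).of_eq (fun I c => by rw [List.flatMap])

theorem OPTF.find? {l : Inst → γ → List α} {p : Inst → γ → α → Bool} (hl : OPTF l)
    (hp : OPTF (fun I (q : γ × α) => p I q.1 q.2)) :
    OPTF (fun I c => (l I c).find? (p I c)) := by
  refine (OPTF.post (g := fun l : List α => l.head?) (by fun_prop)
    (OPTF.filter hl hp)).of_eq (fun I c => by rw [List.head?_filter])

end iterate

end Crest.Agent.R302.ORAM
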